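import Mathlib

/-!
Mixing of order `k` and its one-set versions, with natural numbers as times.
-/

open MeasureTheory Filter Topology

namespace Vale.Agent.P102

variable {Ω : Type*} [MeasurableSpace Ω]

/-- Times whose successive gaps are at least `G`. -/
def Gaps {k : ℕ} (G : ℕ) (t : Fin k → ℕ) : Prop := ∀ i j : Fin k, i < j → t i + G ≤ t j

/-- Mixing of order `k`. -/
def MixOrder (μ : Measure Ω) (T : Ω → Ω) (k : ℕ) : Prop :=
  ∀ A : Fin k → Set Ω, (∀ i, MeasurableSet (A i)) → ∀ ε : ℝ, 0 < ε → ∃ G : ℕ, ∀ t : Fin k → ℕ,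
    Gaps G t → |μ.real (⋂ i, T^[t i] ⁻¹' A i) - ∏ i, μ.real (A i)| ≤ ε

/-- The condition of mixing of order `k` with all sets equal. -/
def OneSetMix (μ : Measure Ω) (T : Ω → Ω) (k : ℕ) : Prop :=
  ∀ A : Set Ω, MeasurableSet A → ∀ ε : ℝ, 0 < ε → ∃ G : ℕ, ∀ t : Fin k → ℕ,
    Gaps G t → |μ.real (⋂ i, T^[t i] ⁻¹' A) - μ.real A ^ k| ≤ ε

/-- Order `k` self-correlations are at most `μ A ^ k` in the limit. -/
def SubOneSetMix (μ : Measure Ω) (T : Ω → Ω) (k : ℕ) : Prop :=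
  ∀ A : Set Ω, MeasurableSet A → ∀ ε : ℝ, 0 < ε → ∃ G : ℕ, ∀ t : Fin k → ℕ,
    Gaps G t → μ.real (⋂ i, T^[t i] ⁻¹' A) ≤ μ.real A ^ k + ε

/-- Order `k` self-correlations are at most a constant times `μ A ^ k` in the limit. -/
def BoundedSelfCorr (μ : Measure Ω) (T : Ω → Ω) (k : ℕ) : Prop :=
  ∃ C : ℝ, ∀ A : Set Ω, MeasurableSet A → ∀ ε : ℝ, 0 < ε → ∃ G : ℕ, ∀ t : Fin k → ℕ,
    Gaps G t → μ.real (⋂ i, T^[t i] ⁻¹' A) ≤ C * μ.real A ^ k + ε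

/-- Weak mixing. -/
def WeakMixing (μ : Measure Ω) (T : Ω → Ω) : Prop :=
  ∀ A B : Set Ω, MeasurableSet A → MeasurableSet B →
    Tendsto (fun N : ℕ => (∑ n ∈ Finset.range N,
      |μ.real (A ∩ T^[n] ⁻¹' B) - μ.real A * μ.real B|) / N) atTop (𝓝 0)

end Vale.Agent.P102
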