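import Vale.Agent.P102.Split

/-!
Bounded self-correlations and ergodicity of products give mixing of order `k`.
-/

open MeasureTheory Filter Topology Finset

namespace Vale.Agent.P102

variable {Ω : Type*} [MeasurableSpace Ω] {μ : Measure Ω} [IsProbabilityMeasure μ]

/-- Cesaro mixing of a set with itself. -/
def AutoMix (μ : Measure Ω) (T : Ω → Ω) : Prop :=
  ∀ A : Set Ω, MeasurableSet A → Tendsto (fun N : ℕ => (∑ n ∈ Finset.range N,
    |μ.real (A ∩ T^[n] ⁻¹' A) - μ.real A ^ 2|) / N) atTop (𝓝 0)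

theorem gaps_mono {k G G' : ℕ} {t : Fin k → ℕ} (h : G ≤ G') (ht : Gaps G' t) : Gaps G t :=
  fun i j hij => le_trans (by omega) (ht i j hij)

theorem sum_label {Q : Type*} [Fintype Q] [MeasurableSpace Q] [MeasurableSingletonClass Q]
    {L : Ω → Q} (hL : Measurable L) (P : Q → Prop) [DecidablePred P] :
    ∑ q, (if P q then 1 else 0) * μ.real (L ⁻¹' {q}) = μ.real {x | P (L x)} := by
  classical
  have : {x | P (L x)} = L ⁻¹' ↑(univ.filter P) := by ext x; simp
  rw [this, ← sum_measureReal_preimage_singleton _ (fun q _ => hL (measurableSet_singleton q)),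
    sum_filter]
  exact sum_congr rfl fun q _ => by split <;> simp

/-- Self-correlation bounds give bounds for every rectangle. -/
theorem dominate {T : Ω → Ω} (hT : MeasurePreserving T μ μ)
    (hsplit : ∀ A : Set Ω, MeasurableSet A → 0 < μ.real A →
      ∃ B ⊆ A, MeasurableSet B ∧ 0 < μ.real B ∧ μ.real B < μ.real A) {k : ℕ}
    (hb : BoundedSelfCorr μ T k) :
    ∃ D : ℝ, 0 ≤ D ∧ ∀ A : Fin k → Set Ω, (∀ i, MeasurableSet (A i)) → ∀ η : ℝ, 0 < η →
      ∃ G : ℕ, ∀ t : Fin k → ℕ, Gaps G t →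
        μ.real (⋂ i, T^[t i] ⁻¹' A i) ≤ D * ∏ i, μ.real (A i) + η := by
  classical
  obtain ⟨C0, hC0⟩ := hb
  set C := max C0 0 with hC
  have hC' : 0 ≤ C := le_max_right _ _
  refine ⟨C * (2 * (k : ℝ)) ^ k, by positivity, fun A hA η hη => ?_⟩
  let F : ℝ → ℝ := fun δ => C * (k : ℝ) ^ k * ∏ i, (2 * μ.real (A i) + δ)
  have hF : Tendsto F (𝓝 0) (𝓝 (C * (2 * (k : ℝ)) ^ k * ∏ i, μ.real (A i))) := by
    have h : Continuous F := by simp only [F]; fun_prop
    convert h.tendsto 0 using 2
    simp only [F, add_zero, prod_mul_distrib, prod_const, card_univ, Fintype.card_fin, mul_pow]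
    ring
  obtain ⟨δ, hδF, hδ⟩ : ∃ δ, F δ < C * (2 * (k : ℝ)) ^ k * ∏ i, μ.real (A i) + η / 2 ∧ 0 < δ :=
    (((hF.eventually (eventually_lt_nhds (lt_add_of_pos_right _ (half_pos hη)))).filter_mono
      nhdsWithin_le_nhds).and (self_mem_nhdsWithin (s := Set.Ioi (0 : ℝ)))).exists
  choose M L hL hM hpc using fun i => exists_cover hsplit hδ (hA i)
  set J := (i : Fin k) → Fin (M i + 1)
  let U : J → Set Ω := fun j => ⋃ i, A i ∩ L i ⁻¹' {j i}
  have hUm : ∀ j, MeasurableSet (U j) := fun j =>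
    MeasurableSet.iUnion fun i => (hA i).inter (hL i (measurableSet_singleton _))
  choose G hG using fun j : J =>
    hC0 (U j) (hUm j) (η / (2 * (Fintype.card J : ℝ))) (by positivity)
  refine ⟨univ.sup G, fun t ht => ?_⟩
  have hsub : (⋂ i, T^[t i] ⁻¹' A i) ⊆ ⋃ j : J, ⋂ i, T^[t i] ⁻¹' U j := by
    intro x hx
    simp only [Set.mem_iInter, Set.mem_preimage] at hx
    simp only [Set.mem_iUnion, Set.mem_iInter, Set.mem_preimage, U]
    exact ⟨fun i => L i (T^[t i] x), fun i => ⟨i, hx i, rfl⟩⟩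
  refine (measureReal_mono hsub).trans ((measureReal_iUnion_fintype_le _).trans ?_)
  have hone : ∀ j, μ.real (⋂ i, T^[t i] ⁻¹' U j) ≤
      C * ((k : ℝ) * δ) ^ k + η / (2 * (Fintype.card J : ℝ)) := by
    intro j
    refine (hG j t (gaps_mono (le_sup (mem_univ j)) ht)).trans (add_le_add ?_ le_rfl)
    refine (mul_le_mul_of_nonneg_right (le_max_left C0 0) (pow_nonneg measureReal_nonneg k)).trans ?_
    refine mul_le_mul_of_nonneg_left (pow_le_pow_left₀ measureReal_nonneg ?_ k) hC'
    refine (measureReal_iUnion_fintype_le _).trans ?_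
    refine (sum_le_sum fun i _ => hpc i (j i)).trans (le_of_eq ?_)
    simp
  refine (sum_le_sum fun j _ => hone j).trans ?_
  rw [sum_const, card_univ, nsmul_eq_mul, mul_add]
  have hcard : (Fintype.card J : ℝ) * (C * ((k : ℝ) * δ) ^ k) ≤ F δ := by
    rw [Fintype.card_pi, Nat.cast_prod]
    have hk : ((k : ℝ) * δ) ^ k = (k : ℝ) ^ k * ∏ _i : Fin k, δ := by simp [mul_pow]
    simp only [F]
    rw [hk, show (∏ i, (Fintype.card (Fin (M i + 1)) : ℝ)) * (C * ((k : ℝ) ^ k * ∏ _i : Fin k, δ)) =
      C * (k : ℝ) ^ k * ((∏ i, (Fintype.card (Fin (M i + 1)) : ℝ)) * ∏ _i : Fin k, δ) by ring,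
      ← prod_mul_distrib]
    refine mul_le_mul_of_nonneg_left (prod_le_prod (fun i _ => by positivity) fun i _ => ?_)
      (by positivity)
    rw [Fintype.card_fin]
    push_cast
    have := hM i
    linarith
  have hlast : (Fintype.card J : ℝ) * (η / (2 * (Fintype.card J : ℝ))) = η / 2 := by
    field_simp
  linarith

theorem abs_prod_sub_prod_le {ι : Type*} (s : Finset ι) (x y : ι → ℝ)
    (hx : ∀ i ∈ s, 0 ≤ x i ∧ x i ≤ 1) (hy : ∀ i ∈ s, 0 ≤ y i ∧ y i ≤ 1) :
    |∏ i ∈ s, x i - ∏ i ∈ s, y i| ≤ ∑ i ∈ s, |x i - y i| := by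
  classical
  induction s using Finset.induction with
  | empty => simp
  | insert i s hi ih =>
    rw [prod_insert hi, prod_insert hi, sum_insert hi]
    have hxs := fun j hj => hx j (mem_insert_of_mem hj)
    have hys := fun j hj => hy j (mem_insert_of_mem hj)
    have h1 : 0 ≤ ∏ j ∈ s, x j := prod_nonneg fun j hj => (hxs j hj).1
    have h2 : ∏ j ∈ s, x j ≤ 1 := prod_le_one (fun j hj => (hxs j hj).1) fun j hj => (hxs j hj).2
    have hy' := hy i (mem_insert_self i s)
    rw [show x i * ∏ j ∈ s, x j - y i * ∏ j ∈ s, y j =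
      (x i - y i) * ∏ j ∈ s, x j + y i * (∏ j ∈ s, x j - ∏ j ∈ s, y j) by ring]
    refine (abs_add_le _ _).trans ?_
    rw [abs_mul, abs_mul, abs_of_nonneg h1, abs_of_nonneg hy'.1]
    exact add_le_add (mul_le_of_le_one_right (abs_nonneg _) h2)
      ((mul_le_of_le_one_left (abs_nonneg _) hy'.2).trans (ih hxs hys))

theorem sum_shift_le {φ : ℕ → ℝ} (hφ : ∀ d, 0 ≤ φ d) {N n : ℕ} (hn : n < N) :
    ∑ m ∈ range N, φ (if n ≤ m then m - n else n - m) ≤ 2 * ∑ d ∈ range N, φ d := by
  rw [← sum_filter_add_sum_filter_not (range N) (fun m => n ≤ m), two_mul]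
  refine add_le_add ?_ ?_
  · rw [sum_congr rfl fun m hm => by rw [if_pos (mem_filter.mp hm).2], ← sum_image (f := φ) (g := fun m => m - n)]
    · refine sum_le_sum_of_subset_of_nonneg (fun d hd => ?_) fun d _ _ => hφ d
      simp only [mem_image, mem_filter, mem_range] at hd ⊢
      omega
    · intro a ha b hb h
      simp only [coe_filter, Set.mem_setOf_eq, mem_range] at ha hb
      simp only at h
      omega
  · rw [sum_congr rfl fun m hm => by rw [if_neg (mem_filter.mp hm).2], ← sum_image (f := φ) (g := fun m => n - m)]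
    · refine sum_le_sum_of_subset_of_nonneg (fun d hd => ?_) fun d _ _ => hφ d
      simp only [mem_image, mem_filter, mem_range] at hd ⊢
      omega
    · intro a ha b hb h
      simp only [coe_filter, Set.mem_setOf_eq, mem_range] at ha hb
      simp only at h
      omega

theorem corr_shift {T : Ω → Ω} (hT : MeasurePreserving T μ μ) {A : Set Ω} (hA : MeasurableSet A)
    (n m : ℕ) : μ.real (T^[n] ⁻¹' A ∩ T^[m] ⁻¹' A) =
      μ.real (A ∩ T^[if n ≤ m then m - n else n - m] ⁻¹' A) := by
  have key : ∀ n d : ℕ, μ.real (T^[n] ⁻¹' A ∩ T^[d + n] ⁻¹' A) = μ.real (A ∩ T^[d] ⁻¹' A) := by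
    intro n d
    rw [Function.iterate_add, Set.preimage_comp, ← Set.preimage_inter]
    exact (hT.iterate n).measureReal_preimage
      (hA.inter ((hT.iterate d).measurable hA)).nullMeasurableSet
  split
  · rename_i h
    have := key n (m - n)
    rwa [Nat.sub_add_cancel h] at this
  · rename_i h
    have := key m (n - m)
    rwa [Nat.sub_add_cancel (by omega), Set.inter_comm] at this

open scoped Classical in
/-- Bounded self-correlations and Cesaro mixing give mixing of order `k`. -/
theorem mixOrder_of_dominate {T : Ω → Ω} (hT : MeasurePreserving T μ μ) (hauto : AutoMix μ T)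
    {k : ℕ} {D : ℝ} (hD : 0 ≤ D)
    (hdom : ∀ A : Fin k → Set Ω, (∀ i, MeasurableSet (A i)) → ∀ η : ℝ, 0 < η →
      ∃ G : ℕ, ∀ t : Fin k → ℕ, Gaps G t →
        μ.real (⋂ i, T^[t i] ⁻¹' A i) ≤ D * ∏ i, μ.real (A i) + η) :
    MixOrder μ T k := by
  intro A hA ε hε
  set r : ℝ := ε / (2 * (D + 1)) with hr
  have hr0 : 0 < r := by positivity
  set e : ℝ := r * r / (2 * ((k : ℝ) + 1)) with he
  have he0 : 0 < e := by positivity
  have hev : ∀ᶠ N : ℕ in atTop, (∀ i, (∑ n ∈ range N,
      |μ.real (A i ∩ T^[n] ⁻¹' A i) - μ.real (A i) ^ 2|) / N < e) ∧ 1 ≤ N :=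
    (eventually_all.2 fun i => (hauto (A i) (hA i)).eventually (eventually_lt_nhds he0)).and
      (eventually_ge_atTop 1)
  obtain ⟨N, hN, hN1⟩ := hev.exists
  have hNr : (0 : ℝ) < N := by exact_mod_cast hN1
  let L : Fin k → Ω → (Fin N → Bool) := fun i x n => decide (T^[(n : ℕ)] x ∈ A i)
  have hL : ∀ i, Measurable (L i) := fun i => measurable_pi_iff.mpr fun n =>
    measurable_to_bool (by
      have : (fun x => L i x n) ⁻¹' {true} = T^[(n : ℕ)] ⁻¹' A i := by ext x; simp [L]
      rw [this]; exact (hT.iterate _).measurable (hA i))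
  set S := Fin k → Fin N → Bool
  let ν : S → ℝ := fun s => ∏ i, μ.real (L i ⁻¹' {s i})
  set η := ε / (4 * (Fintype.card S : ℝ)) with hη
  choose G hG using fun s : S => hdom (fun i => L i ⁻¹' {s i})
    (fun i => hL i (measurableSet_singleton _)) η (by positivity)
  refine ⟨univ.sup G, fun t ht => ?_⟩
  set c := ∏ i, μ.real (A i) with hc
  have hc0 : 0 ≤ c := prod_nonneg fun i _ => measureReal_nonneg
  have hc1 : c ≤ 1 := prod_le_one (fun i _ => measureReal_nonneg) fun i _ => measureReal_le_one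
  let E : Fin N → S → ℝ := fun n s => if ∀ i, s i n = true then 1 else 0
  let g : S → ℝ := fun s => (∑ n, E n s) / N - c
  have hlaw : ∀ s, law μ T t L s ≤ D * ν s + η := fun s =>
    hG s t (gaps_mono (le_sup (mem_univ s)) ht)
  have hEn : ∀ n, ∑ s, E n s * law μ T t L s = μ.real (⋂ i, T^[t i] ⁻¹' A i) := by
    intro n
    rw [sum_law_ind hT t hL (fun _ q => q n = true)]
    have : (⋂ i, T^[t i] ⁻¹' {x | L i x n = true}) = T^[(n : ℕ)] ⁻¹' (⋂ i, T^[t i] ⁻¹' A i) := by
      ext x
      simp only [L, Set.mem_iInter, Set.mem_preimage, Set.mem_setOf_eq, decide_eq_true_eq,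
        ← Function.iterate_add_apply]
      simp only [add_comm]
    rw [this]
    exact (hT.iterate _).measureReal_preimage
      (MeasurableSet.iInter fun i => (hT.iterate _).measurable (hA i)).nullMeasurableSet
  have hone : ∑ s, law μ T t L s = 1 := by
    simpa using sum_law hT t hL (fun _ => (1 : ℝ))
  have hX : μ.real (⋂ i, T^[t i] ⁻¹' A i) - c = ∑ s, g s * law μ T t L s := by
    simp only [g, sub_mul, div_mul_eq_mul_div, sum_sub_distrib, ← sum_div, sum_mul]
    rw [sum_comm, sum_congr rfl fun n _ => hEn n, ← mul_sum, hone, sum_const, card_univ,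
      Fintype.card_fin, nsmul_eq_mul, mul_one]
    field_simp
  have hν : ∀ (P : Fin k → (Fin N → Bool) → Prop) [∀ i, DecidablePred (P i)],
      ∑ s, (if ∀ i, P i (s i) then 1 else 0) * ν s = ∏ i, μ.real {x | P i (L i x)} := by
    intro P _
    have hite : ∀ s : S, (if ∀ i, P i (s i) then (1 : ℝ) else 0) * ν s =
        ∏ i, (if P i (s i) then (1 : ℝ) else 0) * μ.real (L i ⁻¹' {s i}) := by
      intro s
      simp only [ν, prod_mul_distrib]
      congr 1
      rw [Fintype.prod_boole]
      by_cases h : ∀ i, P i (s i) <;> simp [h]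
    rw [sum_congr rfl fun s _ => hite s, ← Fintype.piFinset_univ, ← prod_univ_sum
      (fun _ => (univ : Finset (Fin N → Bool)))
      (fun i q => (if P i q then (1 : ℝ) else 0) * μ.real (L i ⁻¹' {q}))]
    exact prod_congr rfl fun i _ => sum_label (hL i) (P i)
  have hν1 : ∀ n, ∑ s, E n s * ν s = c := by
    intro n
    rw [hν (fun _ q => q n = true)]
    refine prod_congr rfl fun i _ => ?_
    have : {x | L i x n = true} = T^[(n : ℕ)] ⁻¹' A i := by ext x; simp [L]
    rw [this]
    exact (hT.iterate _).measureReal_preimage (hA i).nullMeasurableSet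
  have hν0 : ∑ s, ν s = 1 := by
    have := hν fun _ _ => True
    simpa using this
  have hν2 : ∀ n m : Fin N, ∑ s, E n s * E m s * ν s ≤ c * c +
      ∑ i, (fun d => |μ.real (A i ∩ T^[d] ⁻¹' A i) - μ.real (A i) ^ 2|)
        (if (n : ℕ) ≤ m then (m : ℕ) - n else (n : ℕ) - m) := by
    intro n m
    have he : ∀ s, E n s * E m s = if ∀ i, s i n = true ∧ s i m = true then 1 else 0 := by
      intro s
      simp only [E]
      by_cases h1 : ∀ i, s i n = true <;> by_cases h2 : ∀ i, s i m = true <;>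
        simp [h1, h2, forall_and]
    simp only [he]
    rw [hν (fun _ q => q n = true ∧ q m = true), show c * c = ∏ i, μ.real (A i) ^ 2 by
      rw [prod_pow, sq]]
    have hset : ∀ i, μ.real {x | L i x n = true ∧ L i x m = true} =
        μ.real (A i ∩ T^[if (n : ℕ) ≤ m then (m : ℕ) - n else (n : ℕ) - m] ⁻¹' A i) := by
      intro i
      rw [← corr_shift hT (hA i)]
      congr 1
      ext x; simp [L]
    rw [prod_congr rfl fun i _ => hset i]
    have := abs_prod_sub_prod_le univ
      (fun i => μ.real (A i ∩ T^[if (n : ℕ) ≤ m then (m : ℕ) - n else (n : ℕ) - m] ⁻¹' A i))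
      (fun i => μ.real (A i) ^ 2) (fun i _ => ⟨measureReal_nonneg, measureReal_le_one⟩)
      (fun i _ => ⟨sq_nonneg _, pow_le_one₀ measureReal_nonneg measureReal_le_one⟩)
    linarith [le_abs_self ((∏ i, μ.real (A i ∩ T^[if (n : ℕ) ≤ m then (m : ℕ) - n else (n : ℕ) - m]
      ⁻¹' A i)) - ∏ i, μ.real (A i) ^ 2)]
  have hvar : ∑ s, g s ^ 2 * ν s ≤ r * r := by
    have hexp : ∑ s, g s ^ 2 * ν s =
        (∑ n, ∑ m, ∑ s, E n s * E m s * ν s) / (N : ℝ) ^ 2 - c * c := by
      have h1 : ∀ s, g s ^ 2 * ν s = (∑ n, ∑ m, E n s * E m s * ν s) / (N : ℝ) ^ 2 -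
          2 * c * ((∑ n, E n s * ν s) / N) + c * c * ν s := by
        intro s
        simp only [g, ← sum_mul, ← mul_sum]
        field_simp
        ring
      rw [sum_congr rfl fun s _ => h1 s, sum_add_distrib, sum_sub_distrib, ← mul_sum, ← sum_div,
        ← sum_div, ← mul_sum, hν0, sum_comm (f := fun s n => E n s * ν s),
        sum_congr rfl fun n _ => hν1 n, sum_comm (f := fun s n => ∑ m, E n s * E m s * ν s),
        sum_congr rfl fun n _ => sum_comm (f := fun s m => E n s * E m s * ν s), sum_const,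
        card_univ, Fintype.card_fin, nsmul_eq_mul]
      field_simp
      ring
    rw [hexp, sub_le_iff_le_add, div_le_iff₀ (by positivity)]
    refine (sum_le_sum fun n _ => sum_le_sum fun m _ => hν2 n m).trans ?_
    simp only [sum_add_distrib, sum_const, card_univ, Fintype.card_fin, nsmul_eq_mul]
    have hphi : ∀ n : Fin N, ∑ m : Fin N, ∑ i,
        |μ.real (A i ∩ T^[if (n : ℕ) ≤ m then (m : ℕ) - n else (n : ℕ) - m] ⁻¹' A i) -
          μ.real (A i) ^ 2| ≤ (k : ℝ) * (2 * (e * N)) := by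
      intro n
      rw [sum_comm]
      refine (sum_le_sum (g := fun _ => 2 * (e * N)) fun i _ => ?_).trans (le_of_eq (by simp))
      rw [Fin.sum_univ_eq_sum_range (fun m => |μ.real (A i ∩
        T^[if (n : ℕ) ≤ m then m - (n : ℕ) else (n : ℕ) - m] ⁻¹' A i) - μ.real (A i) ^ 2|) N]
      refine (sum_shift_le (φ := fun d => |μ.real (A i ∩ T^[d] ⁻¹' A i) - μ.real (A i) ^ 2|)
        (fun d => abs_nonneg _) n.2).trans ?_
      have := hN i
      rw [div_lt_iff₀ hNr] at this
      linarith
    have h3 := sum_le_sum (s := (univ : Finset (Fin N))) fun n _ => hphi n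
    simp only [sum_const, card_univ, Fintype.card_fin, nsmul_eq_mul] at h3
    have : (k : ℝ) * (2 * e) ≤ r * r := by
      rw [he, show (k : ℝ) * (2 * (r * r / (2 * ((k : ℝ) + 1)))) =
        r * r * ((k : ℝ) / ((k : ℝ) + 1)) by field_simp]
      exact mul_le_of_le_one_right (by positivity) (by rw [div_le_one (by positivity)]; linarith)
    nlinarith [mul_le_mul_of_nonneg_right this (show (0 : ℝ) ≤ (N : ℝ) * N by positivity)]
  have hg2 : ∀ s, |g s| ≤ 2 := by
    intro s
    have h1 : 0 ≤ (∑ n, E n s) / (N : ℝ) := by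
      refine div_nonneg (sum_nonneg fun n _ => ?_) hNr.le
      simp only [E]; split <;> norm_num
    have h2 : (∑ n, E n s) / (N : ℝ) ≤ 1 := by
      rw [div_le_one hNr]
      refine (sum_le_sum fun n _ => show E n s ≤ 1 by simp only [E]; split <;> norm_num).trans ?_
      simp
    rw [abs_le]; simp only [g]; constructor <;> linarith
  have hν' : ∀ s, 0 ≤ ν s := fun s => prod_nonneg fun i _ => measureReal_nonneg
  rw [hX]
  refine (abs_sum_le_sum_abs _ _).trans ?_
  calc ∑ s, |g s * law μ T t L s|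
      ≤ ∑ s, (D * ((g s ^ 2 / (2 * r) + r / 2) * ν s) + 2 * η) := by
        refine sum_le_sum fun s _ => ?_
        rw [abs_mul, abs_of_nonneg (law_nonneg t L s)]
        have h1 : |g s| ≤ g s ^ 2 / (2 * r) + r / 2 := by
          rw [← sq_abs (g s), div_add_div _ _ (by positivity) two_ne_zero, le_div_iff₀ (by positivity)]
          nlinarith [sq_nonneg (|g s| - r)]
        refine (mul_le_mul_of_nonneg_left (hlaw s) (abs_nonneg _)).trans ?_
        rw [mul_add]
        refine add_le_add ?_ (mul_le_mul_of_nonneg_right (hg2 s) (by positivity))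
        rw [← mul_assoc, mul_comm |g s| D, mul_assoc]
        exact mul_le_mul_of_nonneg_left (mul_le_mul_of_nonneg_right h1 (hν' s)) hD
    _ = D * ((∑ s, g s ^ 2 * ν s) / (2 * r) + r / 2 * ∑ s, ν s) + (Fintype.card S : ℝ) * (2 * η) := by
        rw [sum_add_distrib, sum_const, card_univ, nsmul_eq_mul, ← mul_sum, sum_div, mul_sum _ _ (r / 2),
          ← sum_add_distrib]
        congr 2
        exact sum_congr rfl fun s _ => by ring
    _ ≤ D * (r * r / (2 * r) + r / 2 * 1) + (Fintype.card S : ℝ) * (2 * η) := by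
        rw [hν0]; gcongr
    _ ≤ ε := by
        have h1 : (Fintype.card S : ℝ) * (2 * η) = ε / 2 := by rw [hη]; field_simp; ring
        have h2 : D * (r * r / (2 * r) + r / 2 * 1) = D * r := by field_simp; ring
        have h3 : D * r ≤ ε / 2 := by
          rw [hr, mul_div_assoc', div_le_div_iff₀ (by positivity) two_pos]; nlinarith
        linarith

end Vale.Agent.P102
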