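import Vale.Agent.P102.Pairs

/-!
Mixing of order `k` from conditions on a single set.
-/

open MeasureTheory Filter Topology Finset

namespace Vale.Agent.P102

variable {Ω : Type*} [MeasurableSpace Ω] {μ : Measure Ω} [IsProbabilityMeasure μ]

theorem one_set_of_mixOrder {T : Ω → Ω} {k : ℕ} (h : MixOrder μ T k) : OneSetMix μ T k := by
  intro A hA ε hε
  obtain ⟨G, hG⟩ := h (fun _ => A) (fun _ => hA) ε hε
  exact ⟨G, fun t ht => by simpa using hG t ht⟩

theorem sub_of_oneSet {T : Ω → Ω} {k : ℕ} (h : OneSetMix μ T k) : SubOneSetMix μ T k := by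
  intro A hA ε hε
  obtain ⟨G, hG⟩ := h A hA ε hε
  exact ⟨G, fun t ht => by linarith [(abs_le.mp (hG t ht)).2]⟩

theorem bounded_of_sub {T : Ω → Ω} {k : ℕ} (h : SubOneSetMix μ T k) :
    BoundedSelfCorr μ T k :=
  ⟨1, fun A hA ε hε => by
    obtain ⟨G, hG⟩ := h A hA ε hε
    exact ⟨G, fun t ht => by linarith [hG t ht]⟩⟩

/-- Mixing of order `k ≥ 2` implies mixing. -/
theorem mixing_of_mixOrder {T : Ω → Ω} {k : ℕ} (hk : 2 ≤ k) (h : MixOrder μ T k)
    {A B : Set Ω} (hA : MeasurableSet A) (hB : MeasurableSet B) :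
    Tendsto (fun n => μ.real (A ∩ T^[n] ⁻¹' B)) atTop (𝓝 (μ.real A * μ.real B)) := by
  classical
  let i0 : Fin k := ⟨0, by omega⟩
  let i1 : Fin k := ⟨1, by omega⟩
  let F : Fin k → Set Ω := fun i => if i = i0 then A else if i = i1 then B else Set.univ
  have h10 : i1 ≠ i0 := by simp [i0, i1, Fin.ext_iff]
  have hF : ∀ i, MeasurableSet (F i) := fun i => by
    simp only [F]; split_ifs
    · exact hA
    · exact hB
    · exact MeasurableSet.univ
  have hprod : ∏ i, μ.real (F i) = μ.real A * μ.real B := by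
    rw [← prod_subset (subset_univ ({i0, i1} : Finset (Fin k))), prod_pair h10.symm]
    · simp [F, h10]
    · intro i _ hi
      simp only [Finset.mem_insert, Finset.mem_singleton, not_or] at hi
      simp [F, hi.1, hi.2]
  rw [Metric.tendsto_atTop]
  intro ε hε
  obtain ⟨G, hG⟩ := h F hF (ε / 2) (half_pos hε)
  refine ⟨G, fun n hn => ?_⟩
  have ht : Gaps G (fun i : Fin k => (i : ℕ) * n) := fun i j hij => by
    have : ((i : ℕ) + 1) * n ≤ (j : ℕ) * n := Nat.mul_le_mul_right _ hij
    rw [add_mul, one_mul] at this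
    show (i : ℕ) * n + G ≤ (j : ℕ) * n
    omega
  have h2 := hG _ ht
  have hset : (⋂ i : Fin k, T^[(i : ℕ) * n] ⁻¹' F i) = A ∩ T^[n] ⁻¹' B := by
    ext x
    simp only [Set.mem_iInter, Set.mem_preimage, Set.mem_inter_iff]
    constructor
    · intro hx
      refine ⟨?_, ?_⟩
      · simpa [F, i0] using hx i0
      · have := hx i1
        simp [F, h10] at this
        simpa [i1] using this
    · intro hx i
      simp only [F]
      split_ifs with h1 h2
      · subst h1; simpa [i0] using hx.1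
      · subst h2; simpa [i1] using hx.2
      · trivial
  rw [hset, hprod] at h2
  rw [Real.dist_eq]
  linarith

theorem weakMixing_of_mixOrder {T : Ω → Ω} {k : ℕ} (hk : 2 ≤ k) (h : MixOrder μ T k) :
    WeakMixing μ T := by
  intro A B hA hB
  have h1 := ((mixing_of_mixOrder hk h hA hB).sub_const (μ.real A * μ.real B)).abs
  rw [sub_self, abs_zero] at h1
  exact h1.cesaro.congr fun N => by rw [div_eq_inv_mul]

theorem autoMix_of_weakMixing {T : Ω → Ω} (h : WeakMixing μ T) : AutoMix μ T :=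
  fun A hA => by simpa only [sq] using h A A hA hA

theorem trivial_of_auto {T : Ω → Ω} (hT : MeasurePreserving T μ μ) (h : AutoMix μ T) {A : Set Ω}
    (hA : MeasurableSet A) (h0 : 0 < μ.real A)
    (hatom : ∀ B ⊆ A, MeasurableSet B → μ.real B = 0 ∨ μ.real A ≤ μ.real B) :
    μ.real A = 1 := by
  by_contra hne
  have ha1 : μ.real A < 1 := lt_of_le_of_ne measureReal_le_one hne
  set c := min (μ.real A ^ 2) (μ.real A - μ.real A ^ 2) with hc
  have hc0 : 0 < c := lt_min (pow_pos h0 2) (by nlinarith)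
  have hlow : ∀ n, c ≤ |μ.real (A ∩ T^[n] ⁻¹' A) - μ.real A ^ 2| := by
    intro n
    rcases hatom _ Set.inter_subset_left (hA.inter ((hT.iterate n).measurable hA)) with hh | hh
    · rw [hh, zero_sub, abs_neg, abs_of_nonneg (sq_nonneg _)]; exact min_le_left _ _
    · exact (min_le_right _ _).trans ((sub_le_sub_right hh _).trans (le_abs_self _))
  obtain ⟨N, hN, hN1⟩ :=
    (((h A hA).eventually (eventually_lt_nhds hc0)).and (eventually_ge_atTop 1)).exists
  rw [div_lt_iff₀ (by exact_mod_cast hN1)] at hN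
  have := sum_le_sum (s := Finset.range N) fun n _ => hlow n
  rw [sum_const, card_range, nsmul_eq_mul] at this
  linarith

theorem trivial_of_sub {T : Ω → Ω} (hT : MeasurePreserving T μ μ) {k : ℕ} (hk : 2 ≤ k)
    (h : SubOneSetMix μ T k) {A : Set Ω} (hA : MeasurableSet A) (h0 : 0 < μ.real A)
    (hatom : ∀ B ⊆ A, MeasurableSet B → μ.real B = 0 ∨ μ.real A ≤ μ.real B) :
    μ.real A = 1 := by
  by_contra hne
  have ha1 : μ.real A < 1 := lt_of_le_of_ne measureReal_le_one hne
  have hμ : μ A ≠ 0 := fun e => by simp [Measure.real, e] at h0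
  obtain ⟨q, hq, hq'⟩ := hT.conservative.exists_gt_measure_inter_ne_zero hA.nullMeasurableSet hμ 0
  have hq'' : μ.real (A ∩ T^[q] ⁻¹' A) ≠ 0 := fun e =>
    hq' ((measureReal_eq_zero_iff (measure_ne_top μ _)).mp e)
  have hle : μ.real A ≤ μ.real (A ∩ T^[q] ⁻¹' A) :=
    (hatom _ Set.inter_subset_left (hA.inter ((hT.iterate q).measurable hA))).resolve_left hq''
  have hnull : μ.real (A \ T^[q] ⁻¹' A) = 0 := by
    have := measureReal_inter_add_sdiff (μ := μ) (s := A) ((hT.iterate q).measurable hA)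
    linarith [measureReal_nonneg (μ := μ) (s := A \ T^[q] ⁻¹' A)]
  have hrep : ∀ j, μ.real (A \ T^[j * q] ⁻¹' A) = 0 := by
    intro j
    induction j with
    | zero => simp
    | succ j ih =>
      refine le_antisymm ?_ measureReal_nonneg
      have hsub : A \ T^[(j + 1) * q] ⁻¹' A ⊆
          (A \ T^[q] ⁻¹' A) ∪ T^[q] ⁻¹' (A \ T^[j * q] ⁻¹' A) := by
        intro x hx
        by_cases hxq : T^[q] x ∈ A
        · refine Or.inr ⟨hxq, fun h' => hx.2 ?_⟩
          simp only [Set.mem_preimage, ← Function.iterate_add_apply] at h' ⊢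
          rwa [add_mul, one_mul]
        · exact Or.inl ⟨hx.1, hxq⟩
      refine (measureReal_mono hsub).trans ((measureReal_union_le _ _).trans (le_of_eq ?_))
      rw [(hT.iterate q).measureReal_preimage
        (hA.diff ((hT.iterate _).measurable hA)).nullMeasurableSet, ih, hnull, add_zero]
  have hpow : μ.real A ^ k < μ.real A := pow_lt_self_of_lt_one₀ h0 ha1 (by omega)
  obtain ⟨G, hG⟩ := h A hA ((μ.real A - μ.real A ^ k) / 2) (by linarith)
  have ht : Gaps G (fun i : Fin k => (i : ℕ) * G * q) := fun i j hij => by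
    have h1 : ((i : ℕ) + 1) * (G * q) ≤ (j : ℕ) * (G * q) := Nat.mul_le_mul_right _ hij
    have h2 : G ≤ G * q := Nat.le_mul_of_pos_right G hq
    rw [add_mul, one_mul] at h1
    simp only [mul_assoc]
    omega
  have h3 := hG _ ht
  have hbig : μ.real A ≤ μ.real (⋂ i : Fin k, T^[(i : ℕ) * G * q] ⁻¹' A) := by
    have hsub : A ⊆ (⋂ i : Fin k, T^[(i : ℕ) * G * q] ⁻¹' A) ∪
        ⋃ i : Fin k, A \ T^[(i : ℕ) * G * q] ⁻¹' A := by
      intro x hx
      by_cases hall : ∀ i : Fin k, T^[(i : ℕ) * G * q] x ∈ A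
      · exact Or.inl (Set.mem_iInter.mpr hall)
      · obtain ⟨i, hi⟩ := not_forall.mp hall
        exact Or.inr (Set.mem_iUnion.mpr ⟨i, hx, hi⟩)
    refine (measureReal_mono hsub).trans ((measureReal_union_le _ _).trans ?_)
    have : μ.real (⋃ i : Fin k, A \ T^[(i : ℕ) * G * q] ⁻¹' A) ≤ 0 :=
      (measureReal_iUnion_fintype_le _).trans (le_of_eq (sum_eq_zero fun i _ => hrep _))
    linarith
  linarith

/-- Bounded self-correlations and weak mixing give mixing of order `k`. -/
theorem mixOrder_of_bounded {T : Ω → Ω} (hT : MeasurePreserving T μ μ) {k : ℕ}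
    (hw : AutoMix μ T) (hb : BoundedSelfCorr μ T k) : MixOrder μ T k := by
  rcases atom_or_split μ with hs | ⟨A, hA, h0, hatom⟩
  · obtain ⟨D, hD, hdom⟩ := dominate hT hs hb
    exact mixOrder_of_dominate hT hw hD hdom
  · exact mixOrder_of_trivial hT k fun B hB =>
      trivial_of_full_atom hA (trivial_of_auto hT hw hA h0 hatom) hatom hB

/-- The one-sided one-set condition gives mixing of order `k`. -/
theorem mixOrder_of_sub {T : Ω → Ω} (hT : MeasurePreserving T μ μ) {k : ℕ} (hk : 2 ≤ k)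
    (h : SubOneSetMix μ T k) : MixOrder μ T k := by
  rcases atom_or_split μ with hs | ⟨A, hA, h0, hatom⟩
  · refine mixOrder_of_bounded hT (fun B hB => ?_) (bounded_of_sub h)
    have h1 := (auto_tendsto hT hs hk h hB).abs
    rw [abs_zero] at h1
    exact h1.cesaro.congr fun N => by rw [div_eq_inv_mul]
  · exact mixOrder_of_trivial hT k fun B hB =>
      trivial_of_full_atom hA (trivial_of_sub hT hk h hA h0 hatom) hatom hB

theorem mixOrder_iff {T : Ω → Ω} (hT : MeasurePreserving T μ μ) {k : ℕ} (hk : 2 ≤ k) :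
    (MixOrder μ T k ↔ OneSetMix μ T k) ∧ (MixOrder μ T k ↔ SubOneSetMix μ T k) ∧
      (MixOrder μ T k ↔ WeakMixing μ T ∧ BoundedSelfCorr μ T k) := by
  refine ⟨⟨one_set_of_mixOrder, fun h => mixOrder_of_sub hT hk (sub_of_oneSet h)⟩,
    ⟨fun h => sub_of_oneSet (one_set_of_mixOrder h), mixOrder_of_sub hT hk⟩,
    ⟨fun h => ⟨weakMixing_of_mixOrder hk h, bounded_of_sub (sub_of_oneSet (one_set_of_mixOrder h))⟩,
      fun h => mixOrder_of_bounded hT (autoMix_of_weakMixing h.1) h.2⟩⟩

end Vale.Agent.P102
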