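import Vale.Agent.P102.Smooth

/-!
The one-set condition of order `k` forces mixing.
-/

open MeasureTheory Filter Topology Finset

namespace Vale.Agent.P102

variable {Ω : Type*} [MeasurableSpace Ω] {μ : Measure Ω} [IsProbabilityMeasure μ]

/-- The centred indicator of `A` seen at time `n`. -/
noncomputable def cInd (μ : Measure Ω) (T : Ω → Ω) (A : Set Ω) (n : ℕ) (x : Ω) : ℝ :=
  A.indicator (fun _ => (1 : ℝ)) (T^[n] x) - μ.real A

theorem ind_abs_le (A : Set Ω) (x : Ω) : |A.indicator (fun _ => (1 : ℝ)) x| ≤ 1 := by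
  by_cases h : x ∈ A <;> simp [h]

theorem integrable_bdd {f : Ω → ℝ} (hm : Measurable f) (B : ℝ) (hb : ∀ x, |f x| ≤ B) :
    Integrable f μ :=
  Integrable.of_bound hm.aestronglyMeasurable B (Eventually.of_forall fun x => by
    rw [Real.norm_eq_abs]; exact hb x)

theorem measurable_ind {T : Ω → Ω} (hT : MeasurePreserving T μ μ) {A : Set Ω}
    (hA : MeasurableSet A) (n : ℕ) :
    Measurable fun x => A.indicator (fun _ => (1 : ℝ)) (T^[n] x) :=
  (measurable_const.indicator hA).comp (hT.iterate n).measurable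

theorem integral_ind {T : Ω → Ω} (hT : MeasurePreserving T μ μ) {A : Set Ω}
    (hA : MeasurableSet A) (n : ℕ) :
    ∫ x, A.indicator (fun _ => (1 : ℝ)) (T^[n] x) ∂μ = μ.real A := by
  have : (fun x => A.indicator (fun _ => (1 : ℝ)) (T^[n] x)) = (T^[n] ⁻¹' A).indicator 1 := by
    funext x
    by_cases h : T^[n] x ∈ A <;> simp [h]
  rw [this, integral_indicator_one ((hT.iterate n).measurable hA),
    (hT.iterate n).measureReal_preimage hA.nullMeasurableSet]

theorem measurable_cInd {T : Ω → Ω} (hT : MeasurePreserving T μ μ) {A : Set Ω}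
    (hA : MeasurableSet A) (n : ℕ) : Measurable (cInd μ T A n) :=
  (measurable_ind hT hA n).sub measurable_const

theorem abs_cInd_le (T : Ω → Ω) (A : Set Ω) (n : ℕ) (x : Ω) : |cInd μ T A n x| ≤ 2 := by
  refine (abs_sub _ _).trans ?_
  have h1 := ind_abs_le A (T^[n] x)
  have h2 : μ.real A ≤ 1 := measureReal_le_one
  rw [abs_of_nonneg (measureReal_nonneg (μ := μ) (s := A))]
  linarith

theorem integral_cInd_mul {T : Ω → Ω} (hT : MeasurePreserving T μ μ) {A : Set Ω}
    (hA : MeasurableSet A) (u v : ℕ) :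
    ∫ x, cInd μ T A u x * cInd μ T A v x ∂μ =
      μ.real (T^[u] ⁻¹' A ∩ T^[v] ⁻¹' A) - μ.real A ^ 2 := by
  have hu := integrable_bdd (μ := μ) (measurable_ind hT hA u) 1 fun x => ind_abs_le A _
  have hv := integrable_bdd (μ := μ) (measurable_ind hT hA v) 1 fun x => ind_abs_le A _
  have hm : MeasurableSet (T^[u] ⁻¹' A ∩ T^[v] ⁻¹' A) :=
    ((hT.iterate u).measurable hA).inter ((hT.iterate v).measurable hA)
  have e : (fun x => cInd μ T A u x * cInd μ T A v x) = fun x =>
      (T^[u] ⁻¹' A ∩ T^[v] ⁻¹' A).indicator 1 x -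
        μ.real A * A.indicator (fun _ => (1 : ℝ)) (T^[u] x) -
        μ.real A * A.indicator (fun _ => (1 : ℝ)) (T^[v] x) + μ.real A ^ 2 := by
    funext x
    by_cases h1 : T^[u] x ∈ A <;> by_cases h2 : T^[v] x ∈ A <;> simp [cInd, h1, h2] <;> ring
  have hw : Integrable ((T^[u] ⁻¹' A ∩ T^[v] ⁻¹' A).indicator (1 : Ω → ℝ)) μ :=
    (integrable_const (1 : ℝ)).indicator hm
  rw [e, integral_add ((hw.sub' (hu.const_mul _)).sub' (hv.const_mul _)) (integrable_const _),
    integral_sub (hw.sub' (hu.const_mul _)) (hv.const_mul _), integral_sub hw (hu.const_mul _),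
    integral_const_mul, integral_const_mul, integral_indicator_one hm, integral_ind hT hA,
    integral_ind hT hA, integral_const, probReal_univ, one_smul]
  ring

theorem integral_cInd_sum_sq {T : Ω → Ω} (hT : MeasurePreserving T μ μ) {A : Set Ω}
    (hA : MeasurableSet A) (P : Finset ℕ) :
    ∫ x, (∑ u ∈ P, cInd μ T A u x) ^ 2 ∂μ =
      ∑ u ∈ P, ∑ v ∈ P, ∫ x, cInd μ T A u x * cInd μ T A v x ∂μ := by
  have hint : ∀ u v, Integrable (fun x => cInd μ T A u x * cInd μ T A v x) μ := fun u v =>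
    integrable_bdd ((measurable_cInd hT hA u).mul (measurable_cInd hT hA v)) 4 fun x => by
      rw [abs_mul]
      nlinarith [abs_cInd_le (μ := μ) T A u x, abs_cInd_le (μ := μ) T A v x,
        abs_nonneg (cInd μ T A u x), abs_nonneg (cInd μ T A v x)]
  simp only [sq, sum_mul_sum]
  rw [integral_finsetSum _ fun u _ => integrable_finsetSum _ fun v _ => hint u v]
  exact sum_congr rfl fun u _ => integral_finsetSum _ fun v _ => hint u v

theorem pow_second_order {w : ℝ} (h0 : 0 ≤ w) (h1 : w ≤ 1) : ∀ n : ℕ,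
    |(1 + w) ^ n - (1 + (n : ℝ) * w + ((n : ℝ) ^ 2 - n) / 2 * w ^ 2)| ≤ 3 ^ n * w ^ 3
  | 0 => by simp; positivity
  | n + 1 => by
    have ih := pow_second_order h0 h1 n
    have hn : ((n : ℝ) ^ 2 - n) / 2 ≤ 3 ^ n := by
      have h : (n : ℝ) ^ 2 ≤ 2 * 3 ^ n := by
        have : ∀ j : ℕ, j ^ 2 ≤ 2 * 3 ^ j := by
          intro j
          induction j with
          | zero => simp
          | succ j ihj =>
            have h3 : j < 3 ^ j := Nat.lt_pow_self (by norm_num)
            rw [pow_succ 3]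
            ring_nf at ihj ⊢
            omega
        have := this n
        exact_mod_cast this
      linarith [(Nat.cast_nonneg n : (0 : ℝ) ≤ n)]
    have hn0 : 0 ≤ ((n : ℝ) ^ 2 - n) / 2 := by
      rcases Nat.eq_zero_or_pos n with h | h
      · subst h; simp
      · have : (1 : ℝ) ≤ n := by exact_mod_cast h
        nlinarith
    push_cast
    rw [pow_succ, show (1 + w) ^ n * (1 + w) -
        (1 + ((n : ℝ) + 1) * w + (((n : ℝ) + 1) ^ 2 - ((n : ℝ) + 1)) / 2 * w ^ 2) =
      ((1 + w) ^ n - (1 + (n : ℝ) * w + ((n : ℝ) ^ 2 - n) / 2 * w ^ 2)) * (1 + w) +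
        ((n : ℝ) ^ 2 - n) / 2 * w ^ 3 by ring]
    refine (abs_add_le _ _).trans ?_
    rw [abs_mul, abs_mul, abs_of_nonneg (show 0 ≤ 1 + w by linarith), abs_of_nonneg hn0,
      abs_of_nonneg (pow_nonneg h0 3)]
    refine (add_le_add (mul_le_mul ih (show 1 + w ≤ 2 by linarith) (by linarith) (by positivity))
      (mul_le_mul_of_nonneg_right hn (pow_nonneg h0 3))).trans (le_of_eq ?_)
    ring

theorem prod_ind {k : ℕ} (T : Ω → Ω) (t : Fin k → ℕ) (A : Set Ω) (z : ℝ) (x : Ω) :
    ∃ n ≤ k, (n : ℝ) = ∑ i, A.indicator (fun _ => (1 : ℝ)) (T^[t i] x) ∧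
      ∏ i, (1 + z * A.indicator (fun _ => (1 : ℝ)) (T^[t i] x)) = (1 + z) ^ n := by
  classical
  refine ⟨((univ : Finset (Fin k)).filter fun i => T^[t i] x ∈ A).card,
    (card_filter_le _ _).trans (by simp), ?_, ?_⟩
  · rw [card_eq_sum_ones, Nat.cast_sum, sum_filter]
    exact sum_congr rfl fun i _ => by by_cases h : T^[t i] x ∈ A <;> simp [h]
  · rw [← prod_const, prod_filter]
    exact prod_congr rfl fun i _ => by by_cases h : T^[t i] x ∈ A <;> simp [h]

/-- Second moment of the number of visits at `k` well separated times. -/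
theorem second_moment {T : Ω → Ω} (hT : MeasurePreserving T μ μ)
    (hsplit : ∀ A : Set Ω, MeasurableSet A → 0 < μ.real A →
      ∃ B ⊆ A, MeasurableSet B ∧ 0 < μ.real B ∧ μ.real B < μ.real A)
    {k : ℕ} (hk : 1 ≤ k) (hone : SubOneSetMix μ T k) {A : Set Ω} (hA : MeasurableSet A)
    {ε : ℝ} (hε : 0 < ε) :
    ∃ G : ℕ, ∀ t : Fin k → ℕ, Gaps G t →
      ∫ x, (∑ i, cInd μ T A (t i) x) ^ 2 ∂μ ≤ k * (μ.real A - μ.real A ^ 2) + ε := by
  set a := μ.real A with ha
  have ha0 : 0 ≤ a := measureReal_nonneg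
  have ha1 : a ≤ 1 := measureReal_le_one
  set z : ℝ := min 1 (ε / (8 * 3 ^ k)) with hz
  have hz0 : 0 < z := lt_min one_pos (by positivity)
  have hz1 : z ≤ 1 := min_le_left _ _
  have hz3 : 8 * 3 ^ k * z ≤ ε := by
    have := min_le_right 1 (ε / (8 * 3 ^ k))
    rw [← hz, le_div_iff₀ (by positivity)] at this
    linarith
  obtain ⟨G, hG⟩ := smooth hT hsplit hk hone hA hz0.le (η := z ^ 3 * 3 ^ k) (by positivity)
  refine ⟨G, fun t ht => ?_⟩
  have h := hG t ht
  set R : Ω → ℝ := fun x => ∑ i, A.indicator (fun _ => (1 : ℝ)) (T^[t i] x) with hR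
  have hRm : Measurable R := Finset.measurable_sum _ fun i _ => measurable_ind hT hA (t i)
  have hRb : ∀ x, |R x| ≤ k := fun x => (abs_sum_le_sum_abs _ _).trans
    ((sum_le_sum fun i _ => ind_abs_le A _).trans (by simp))
  have hRi : Integrable R μ := integrable_bdd hRm k hRb
  have hR2i : Integrable (fun x => R x ^ 2) μ := integrable_bdd (hRm.pow_const 2) ((k : ℝ) ^ 2)
    fun x => by rw [abs_pow]; exact pow_le_pow_left₀ (abs_nonneg _) (hRb x) 2
  have hRint : ∫ x, R x ∂μ = k * a := by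
    simp only [hR]
    rw [integral_finsetSum _ fun i _ =>
      integrable_bdd (measurable_ind hT hA (t i)) 1 fun x => ind_abs_le A _]
    simp [integral_ind hT hA, ha]
  set F : Ω → ℝ := fun x => ∏ i, (1 + z * A.indicator (fun _ => (1 : ℝ)) (T^[t i] x)) with hF
  have hFb : ∀ x, |F x - (1 + R x * z + (R x ^ 2 - R x) / 2 * z ^ 2)| ≤ 3 ^ k * z ^ 3 := by
    intro x
    obtain ⟨n, hn, e1, e2⟩ := prod_ind T t A z x
    simp only [hF, hR, e2, ← e1]
    refine (pow_second_order hz0.le hz1 n).trans (mul_le_mul_of_nonneg_right ?_ (by positivity))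
    exact pow_le_pow_right₀ (by norm_num) hn
  have hFm : Measurable F := Finset.measurable_prod _ fun i _ =>
    measurable_const.add ((measurable_ind hT hA (t i)).const_mul z)
  have hFi : Integrable F μ := integrable_bdd hFm (2 ^ k) fun x => by
    obtain ⟨n, hn, e1, e2⟩ := prod_ind T t A z x
    simp only [hF, e2, abs_pow]
    refine (pow_le_pow_left₀ (abs_nonneg _) ?_ n).trans (pow_le_pow_right₀ (by norm_num) hn)
    rw [abs_of_nonneg (by linarith)]; linarith
  have hQi : Integrable (fun x => 1 + R x * z + (R x ^ 2 - R x) / 2 * z ^ 2) μ :=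
    ((integrable_const 1).fun_add (hRi.mul_const z)).fun_add (((hR2i.sub' hRi).div_const 2).mul_const _)
  have hQ : ∫ x, (1 + R x * z + (R x ^ 2 - R x) / 2 * z ^ 2) ∂μ =
      1 + k * a * z + ((∫ x, R x ^ 2 ∂μ) - k * a) / 2 * z ^ 2 := by
    rw [integral_add ((integrable_const 1).fun_add (hRi.mul_const z))
        (((hR2i.sub' hRi).div_const 2).mul_const _),
      integral_add (integrable_const 1) (hRi.mul_const z), integral_mul_const, integral_mul_const,
      integral_div, integral_sub hR2i hRi, hRint, integral_const, probReal_univ, one_smul]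
  have h2 : |∫ x, F x ∂μ - (1 + k * a * z + ((∫ x, R x ^ 2 ∂μ) - k * a) / 2 * z ^ 2)| ≤
      3 ^ k * z ^ 3 := by
    rw [← hQ, ← integral_sub hFi hQi]
    refine abs_integral_le_integral_abs.trans ?_
    refine (integral_mono (hFi.sub' hQi).abs (integrable_const _) hFb).trans (le_of_eq ?_)
    simp
  have h3 := pow_second_order (w := z * a) (mul_nonneg hz0.le ha0)
    (mul_le_one₀ hz1 ha0 ha1) k
  have h4 : (z * a) ^ 3 * 3 ^ k ≤ z ^ 3 * 3 ^ k := by
    refine mul_le_mul_of_nonneg_right (pow_le_pow_left₀ (mul_nonneg hz0.le ha0) ?_ 3) (by positivity)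
    exact mul_le_of_le_one_right hz0.le ha1
  rw [abs_le] at h2 h3
  have hkey : z ^ 2 / 2 * ((∫ x, R x ^ 2 ∂μ) - k * a - ((k : ℝ) ^ 2 - k) * a ^ 2) ≤
      3 * (3 ^ k * z ^ 3) := by
    linarith [h, h2.1, h2.2, h3.1, h3.2]
  have hmain : (∫ x, R x ^ 2 ∂μ) - k * a - ((k : ℝ) ^ 2 - k) * a ^ 2 ≤ 6 * 3 ^ k * z := by
    refine le_of_mul_le_mul_left ?_ (show 0 < z ^ 2 / 2 by positivity)
    refine hkey.trans (le_of_eq ?_)
    ring
  have hsq : ∫ x, (∑ i, cInd μ T A (t i) x) ^ 2 ∂μ = (∫ x, R x ^ 2 ∂μ) - (k * a) ^ 2 := by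
    have e : (fun x => (∑ i, cInd μ T A (t i) x) ^ 2) =
        fun x => R x ^ 2 - 2 * (k * a) * R x + (k * a) ^ 2 := by
      funext x
      simp only [cInd, sum_sub_distrib, sum_const, card_univ, Fintype.card_fin, nsmul_eq_mul, hR, ha]
      ring
    rw [e, integral_add (hR2i.sub' (hRi.const_mul _)) (integrable_const _),
      integral_sub hR2i (hRi.const_mul _), integral_const_mul, hRint, integral_const, probReal_univ,
      one_smul]
    ring
  rw [hsq]
  nlinarith [pow_pos (show (0 : ℝ) < 3 by norm_num) k]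

/-- The one-set condition implies mixing of every set with itself. -/
theorem auto_tendsto {T : Ω → Ω} (hT : MeasurePreserving T μ μ)
    (hsplit : ∀ A : Set Ω, MeasurableSet A → 0 < μ.real A →
      ∃ B ⊆ A, MeasurableSet B ∧ 0 < μ.real B ∧ μ.real B < μ.real A)
    {k : ℕ} (hk : 2 ≤ k) (hone : SubOneSetMix μ T k) {A : Set Ω} (hA : MeasurableSet A) :
    Tendsto (fun n => μ.real (A ∩ T^[n] ⁻¹' A) - μ.real A ^ 2) atTop (𝓝 0) := by
  classical
  rw [Metric.tendsto_atTop]
  by_contra hcon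
  simp only [not_forall, not_exists, not_lt, Real.dist_eq, sub_zero] at hcon
  obtain ⟨δ, hδ, hbad⟩ := hcon
  set c : ℕ → ℝ := fun n => μ.real (A ∩ T^[n] ⁻¹' A) - μ.real A ^ 2 with hc
  obtain ⟨σ, hσ2, hσ⟩ : ∃ σ : ℝ, σ ^ 2 = 1 ∧ ∀ G, ∃ n, G ≤ n ∧ δ ≤ σ * c n := by
    by_contra h
    simp only [not_exists, not_and, not_forall] at h
    obtain ⟨G1, hG1⟩ := h 1 (by norm_num)
    obtain ⟨G2, hG2⟩ := h (-1) (by norm_num)
    obtain ⟨n, hn, hn'⟩ := hbad (max G1 G2)
    have b1 := hG1 n ((le_max_left _ _).trans hn)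
    have b2 := hG2 n ((le_max_right _ _).trans hn)
    simp only [hc] at b1 b2
    rcases le_abs'.mp hn' with hh | hh
    · exact b2 (by linarith)
    · exact b1 (by linarith)
  set ε := δ ^ 2 / 4 with hε
  have hε0 : 0 < ε := by positivity
  obtain ⟨G, hG⟩ := second_moment hT hsplit (by omega) hone hA hε0
  obtain ⟨m, hm⟩ : ∃ m : ℕ, max (k : ℝ) (4 / δ ^ 2) < m := exists_nat_gt _
  have hmk : k ≤ m := by exact_mod_cast ((le_max_left _ _).trans hm.le)
  have hmd : 4 < (m : ℝ) * δ ^ 2 := by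
    have := (le_max_right (k : ℝ) (4 / δ ^ 2)).trans_lt hm
    rw [div_lt_iff₀ (by positivity)] at this
    linarith
  have hPs : ∀ j, ∃ P : Finset ℕ, P.card = j ∧ (∀ u ∈ P, δ ≤ σ * c u) ∧
      ∀ u ∈ P, ∀ v ∈ P, u < v → u + G ≤ v := by
    intro j
    induction j with
    | zero => exact ⟨∅, by simp⟩
    | succ j ih =>
      obtain ⟨P, hP, hPc, hPg⟩ := ih
      obtain ⟨n, hn, hnc⟩ := hσ (P.sup id + G + 1)
      have hlt : ∀ u ∈ P, u + G + 1 ≤ n := fun u hu => by
        have : u ≤ P.sup id := le_sup (f := id) hu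
        omega
      have hnP : n ∉ P := fun h => by have := hlt n h; omega
      refine ⟨insert n P, by rw [card_insert_of_notMem hnP, hP], ?_, ?_⟩
      · intro u hu
        rcases mem_insert.mp hu with h | h
        · rw [h]; exact hnc
        · exact hPc u h
      · intro u hu v hv huv
        rcases mem_insert.mp hu with h | h <;> rcases mem_insert.mp hv with h' | h'
        · omega
        · have := hlt v h'; omega
        · have := hlt u h; omega
        · exact hPg u h v h' huv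
  obtain ⟨P, hP, hPc, hPg⟩ := hPs m
  let g : ℕ → ℕ → ℝ := fun u v => if u = v then 0 else ∫ x, cInd μ T A u x * cInd μ T A v x ∂μ
  have hgdiag : ∀ S : Finset ℕ, ∑ u ∈ S, ∑ v ∈ S, g u v =
      ∫ x, (∑ u ∈ S, cInd μ T A u x) ^ 2 ∂μ - (S.card : ℝ) * (μ.real A - μ.real A ^ 2) := by
    intro S
    have hd : ∀ u, ∫ x, cInd μ T A u x * cInd μ T A u x ∂μ = μ.real A - μ.real A ^ 2 := fun u => by
      rw [integral_cInd_mul hT hA, Set.inter_self,
        (hT.iterate u).measureReal_preimage hA.nullMeasurableSet]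
    rw [integral_cInd_sum_sq hT hA, ← nsmul_eq_mul, ← sum_const, ← sum_sub_distrib]
    refine sum_congr rfl fun u hu => ?_
    rw [← add_sum_erase S _ hu, ← add_sum_erase S (fun v => ∫ x, cInd μ T A u x * cInd μ T A v x ∂μ) hu,
      hd]
    simp only [g, if_pos, zero_add]
    rw [sum_congr rfl fun v hv => if_neg (ne_of_mem_erase hv).symm]
    ring
  have hQ : ∀ n, k ≤ n → ∀ S ⊆ P, S.card = n →
      ∑ u ∈ S, ∑ v ∈ S, g u v ≤ ε * ((n : ℝ) * ((n : ℝ) - 1)) := by
    intro n hn
    induction n, hn using Nat.le_induction with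
    | base =>
      intro S hS hcard
      let t : Fin k → ℕ := fun i => S.orderEmbOfFin hcard i
      have ht : Gaps G t := fun i j hij =>
        hPg _ (hS (orderEmbOfFin_mem S hcard i)) _ (hS (orderEmbOfFin_mem S hcard j))
          ((S.orderEmbOfFin hcard).strictMono hij)
      have h := hG t ht
      have himg : ∀ x, ∑ i, cInd μ T A (t i) x = ∑ u ∈ S, cInd μ T A u x := fun x => by
        conv_rhs => rw [← image_orderEmbOfFin_univ S hcard]
        rw [sum_image fun a _ b _ h => (S.orderEmbOfFin hcard).injective h]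
      simp only [himg] at h
      rw [hgdiag, hcard]
      have h2 : (2 : ℝ) ≤ k := by exact_mod_cast hk
      have : ε ≤ ε * ((k : ℝ) * ((k : ℝ) - 1)) := le_mul_of_one_le_right hε0.le (by nlinarith)
      linarith
    | succ n hn ih =>
      intro S hS hcard
      have hn2 : (2 : ℝ) ≤ n := by exact_mod_cast (hk.trans hn)
      have hsum : ∑ x ∈ S, ∑ u ∈ S.erase x, ∑ v ∈ S.erase x, g u v =
          ((n : ℝ) - 1) * ∑ u ∈ S, ∑ v ∈ S, g u v := by
        have e : ∀ x ∈ S, ∑ u ∈ S.erase x, ∑ v ∈ S.erase x, g u v =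
            (∑ u ∈ S, ∑ v ∈ S, g u v) - ∑ v ∈ S, g x v - ∑ u ∈ S, g u x := by
          intro x hx
          rw [sum_congr rfl fun u _ => sum_erase_eq_sub hx, sum_sub_distrib,
            sum_erase_eq_sub hx, sum_erase_eq_sub (f := fun u => g u x) hx]
          simp only [g, if_pos, sub_zero]
        rw [sum_congr rfl e, sum_sub_distrib, sum_sub_distrib, sum_const, hcard, nsmul_eq_mul,
          sum_comm (f := fun x u => g u x)]
        push_cast; ring
      have hle : ((n : ℝ) - 1) * ∑ u ∈ S, ∑ v ∈ S, g u v ≤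
          ((n : ℝ) + 1) * (ε * ((n : ℝ) * ((n : ℝ) - 1))) := by
        rw [← hsum]
        refine (sum_le_sum fun x hx => ih (S.erase x) ((erase_subset x S).trans hS)
          (by rw [card_erase_of_mem hx, hcard]; omega)).trans (le_of_eq ?_)
        rw [sum_const, hcard, nsmul_eq_mul]
        push_cast; ring
      push_cast
      refine le_of_mul_le_mul_left (hle.trans (le_of_eq ?_)) (show (0 : ℝ) < (n : ℝ) - 1 by linarith)
      ring
  have hbig := hQ m hmk P subset_rfl hP
  rw [hgdiag, hP] at hbig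
  set S : Ω → ℝ := fun x => ∑ u ∈ P, cInd μ T A u x with hS
  set θ : ℝ := σ * m * δ with hθ
  have hSm : Measurable S := Finset.measurable_sum _ fun u _ => measurable_cInd hT hA u
  have hSb : ∀ x, |S x| ≤ 2 * m := fun x => (abs_sum_le_sum_abs _ _).trans
    ((sum_le_sum fun u _ => abs_cInd_le (μ := μ) T A u x).trans (by simp [hP, mul_comm]))
  have hYm := measurable_cInd hT hA 0
  have hS2i : Integrable (fun x => S x ^ 2) μ := integrable_bdd (hSm.pow_const 2) ((2 * (m : ℝ)) ^ 2)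
    fun x => by rw [abs_pow]; exact pow_le_pow_left₀ (abs_nonneg _) (hSb x) 2
  have hY2i : Integrable (fun x => cInd μ T A 0 x ^ 2) μ := integrable_bdd (hYm.pow_const 2) 4
    fun x => by
      rw [abs_pow]
      exact (pow_le_pow_left₀ (abs_nonneg _) (abs_cInd_le T A 0 x) 2).trans (by norm_num)
  have hSYi : Integrable (fun x => S x * cInd μ T A 0 x) μ :=
    integrable_bdd (hSm.mul hYm) (2 * m * 2) fun x => by
      rw [abs_mul]
      exact mul_le_mul (hSb x) (abs_cInd_le T A 0 x) (abs_nonneg _) (by positivity)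
  have h0 : 0 ≤ ∫ x, (S x - θ * cInd μ T A 0 x) ^ 2 ∂μ := integral_nonneg fun x => sq_nonneg _
  have e : (fun x => (S x - θ * cInd μ T A 0 x) ^ 2) = fun x =>
      S x ^ 2 - 2 * θ * (S x * cInd μ T A 0 x) + θ ^ 2 * cInd μ T A 0 x ^ 2 := by
    funext x; ring
  rw [e, integral_add (hS2i.sub' (hSYi.const_mul _)) (hY2i.const_mul _),
    integral_sub hS2i (hSYi.const_mul _), integral_const_mul, integral_const_mul] at h0
  have hSY : ∫ x, S x * cInd μ T A 0 x ∂μ = ∑ u ∈ P, c u := by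
    simp only [hS, sum_mul]
    rw [integral_finsetSum _ fun u _ => integrable_bdd (f := fun x => cInd μ T A u x * cInd μ T A 0 x)
      ((measurable_cInd hT hA u).mul hYm) 4 fun x => by
      rw [abs_mul]
      nlinarith [abs_cInd_le (μ := μ) T A u x, abs_cInd_le (μ := μ) T A 0 x,
        abs_nonneg (cInd μ T A u x), abs_nonneg (cInd μ T A 0 x)]]
    refine sum_congr rfl fun u _ => ?_
    rw [integral_cInd_mul hT hA, Function.iterate_zero, Set.preimage_id, Set.inter_comm]
  have hY2 : ∫ x, cInd μ T A 0 x ^ 2 ∂μ ≤ 1 := by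
    simp only [sq]
    rw [integral_cInd_mul hT hA, Set.inter_self, Function.iterate_zero, Set.preimage_id]
    nlinarith [measureReal_le_one (μ := μ) (s := A), sq_nonneg (μ.real A)]
  have hcorr : (m : ℝ) * δ ≤ σ * ∫ x, S x * cInd μ T A 0 x ∂μ := by
    rw [hSY, mul_sum]
    refine le_trans (le_of_eq ?_) (sum_le_sum fun u hu => hPc u hu)
    simp [hP]
  have hθ2 : θ ^ 2 = (m : ℝ) ^ 2 * δ ^ 2 := by
    rw [hθ, mul_pow, mul_pow, hσ2, one_mul]
  have h1 : θ ^ 2 * (∫ x, cInd μ T A 0 x ^ 2 ∂μ) ≤ θ ^ 2 := mul_le_of_le_one_right (sq_nonneg θ) hY2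
  have hm0 : (0 : ℝ) < m := by
    have : (2 : ℝ) ≤ k := by exact_mod_cast hk
    linarith [le_max_left (k : ℝ) (4 / δ ^ 2)]
  have h2 : 2 * θ * (∫ x, S x * cInd μ T A 0 x ∂μ) ≥ 2 * ((m : ℝ) * δ) * ((m : ℝ) * δ) := by
    rw [hθ, show 2 * (σ * (m : ℝ) * δ) * (∫ x, S x * cInd μ T A 0 x ∂μ) =
      2 * ((m : ℝ) * δ) * (σ * ∫ x, S x * cInd μ T A 0 x ∂μ) by ring]
    exact mul_le_mul_of_nonneg_left hcorr (by positivity)
  have h3 : μ.real A - μ.real A ^ 2 ≤ 1 := by
    nlinarith [measureReal_le_one (μ := μ) (s := A), sq_nonneg (μ.real A)]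
  rw [hε] at hbig
  nlinarith [mul_le_mul_of_nonneg_left h3 hm0.le, mul_lt_mul_of_pos_left hmd hm0]

end Vale.Agent.P102
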