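import Vale.Agent.P102.Dominate

/-!
The one-set condition extends from sets to functions with values in `[0, 1]`.
-/

open MeasureTheory Filter Topology Finset

namespace Vale.Agent.P102

variable {Ω : Type*} [MeasurableSpace Ω] {μ : Measure Ω} [IsProbabilityMeasure μ]

/-- The weight of a random subset that contains `q` with probability `p q`. -/
def wt {Q : Type*} [Fintype Q] [DecidableEq Q] (p : Q → ℝ) (U : Finset Q) : ℝ :=
  (∏ q ∈ U, p q) * ∏ q ∈ univ \ U, (1 - p q)

theorem wt_nonneg {Q : Type*} [Fintype Q] [DecidableEq Q] {p : Q → ℝ} (h0 : ∀ q, 0 ≤ p q)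
    (h1 : ∀ q, p q ≤ 1) (U : Finset Q) : 0 ≤ wt p U :=
  mul_nonneg (prod_nonneg fun q _ => h0 q) (prod_nonneg fun q _ => sub_nonneg.mpr (h1 q))

theorem sum_wt_subset {Q : Type*} [Fintype Q] [DecidableEq Q] (p : Q → ℝ) (S : Finset Q) :
    ∑ U ∈ (univ : Finset Q).powerset, wt p U * (if S ⊆ U then 1 else 0) = ∏ q ∈ S, p q := by
  classical
  have h := prod_add p (fun q => if q ∈ S then 0 else 1 - p q) univ
  have hl : ∏ q : Q, (p q + if q ∈ S then 0 else 1 - p q) = ∏ q ∈ S, p q := by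
    rw [← prod_subset (subset_univ S) (f := fun q => p q + if q ∈ S then 0 else 1 - p q)]
    · exact prod_congr rfl fun q hq => by simp [hq]
    · intro q _ hq; simp [hq]
  rw [← hl, h]
  refine sum_congr rfl fun U _ => ?_
  rw [wt, mul_assoc]
  congr 1
  by_cases hSU : S ⊆ U
  · rw [if_pos hSU, mul_one]
    refine prod_congr rfl fun q hq => ?_
    rw [if_neg fun hqS => (mem_sdiff.mp hq).2 (hSU hqS)]
  · rw [if_neg hSU, mul_zero]
    obtain ⟨q, hqS, hqU⟩ := Finset.not_subset.mp hSU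
    exact (prod_eq_zero (i := q) (mem_sdiff.mpr ⟨mem_univ q, hqU⟩) (by simp [hqS])).symm

/-- The probability that the random subset contains all entries of `s`. -/
def hit {Q : Type*} [DecidableEq Q] {k : ℕ} (p : Q → ℝ) (s : Fin k → Q) : ℝ :=
  ∏ q ∈ univ.image s, p q

theorem sum_wt_hit {Q : Type*} [Fintype Q] [DecidableEq Q] {k : ℕ} (p : Q → ℝ)
    (s : Fin k → Q) :
    ∑ U ∈ (univ : Finset Q).powerset, wt p U * (if ∀ i, s i ∈ U then 1 else 0) = hit p s := by
  rw [hit, ← sum_wt_subset]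
  refine sum_congr rfl fun U _ => ?_
  congr 1
  refine if_congr ⟨fun h q hq => ?_, fun h i => h (mem_image_of_mem s (mem_univ i))⟩ rfl rfl
  obtain ⟨i, -, rfl⟩ := mem_image.mp hq
  exact h i

theorem card_not_injective {Q : Type*} [Fintype Q] [DecidableEq Q] (k : ℕ) :
    ((univ : Finset (Fin k → Q)).filter fun s => ¬ Function.Injective s).card ≤
      k * k * Fintype.card Q ^ (k - 1) := by
  classical
  let F : Fin k × Fin k → Finset (Fin k → Q) := fun a =>
    univ.filter fun s => a.1 ≠ a.2 ∧ s a.1 = s a.2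
  have hsub : ((univ : Finset (Fin k → Q)).filter fun s => ¬ Function.Injective s) ⊆
      univ.biUnion F := by
    intro s hs
    rw [mem_filter, Function.not_injective_iff] at hs
    obtain ⟨-, i, j, hij, hne⟩ := hs
    exact mem_biUnion.mpr ⟨(i, j), mem_univ _, mem_filter.mpr ⟨mem_univ _, hne, hij⟩⟩
  refine (card_le_card hsub).trans (card_biUnion_le.trans ?_)
  have hF : ∀ a, (F a).card ≤ Fintype.card Q ^ (k - 1) := by
    rintro ⟨i, j⟩
    have hinj : Set.InjOn (fun (s : Fin k → Q) (l : {l : Fin k // l ≠ j}) => s l) (F (i, j)) := by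
      intro s hs s' hs' h
      simp only [F, mem_coe, mem_filter, mem_univ, true_and] at hs hs'
      funext l
      by_cases hl : l = j
      · subst hl
        rw [← hs.2, ← hs'.2]
        exact congrFun h ⟨i, hs.1⟩
      · exact congrFun h ⟨l, hl⟩
    refine (card_le_card_of_injOn _ (fun s _ => mem_univ _) hinj).trans ?_
    simp [Fintype.card_subtype_compl]
  refine (sum_le_sum fun a _ => hF a).trans (le_of_eq ?_)
  simp

theorem sum_hit_sub_le {Q : Type*} [Fintype Q] [DecidableEq Q] {k : ℕ} {p : Q → ℝ}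
    (h0 : ∀ q, 0 ≤ p q) (h1 : ∀ q, p q ≤ 1) {ν : (Fin k → Q) → ℝ} (hν : ∀ s, 0 ≤ ν s) {b : ℝ}
    (hb0 : 0 ≤ b) (hb : ∀ s, ν s ≤ b) :
    |∑ s, hit p s * ν s - ∑ s, (∏ i, p (s i)) * ν s| ≤
      ((k * k * Fintype.card Q ^ (k - 1) : ℕ) : ℝ) * b := by
  classical
  rw [← sum_sub_distrib]
  refine (abs_sum_le_sum_abs _ _).trans ?_
  have hterm : ∀ s, |hit p s * ν s - (∏ i, p (s i)) * ν s| ≤
      if ¬ Function.Injective s then b else 0 := by
    intro s
    by_cases h : Function.Injective s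
    · rw [if_neg (not_not_intro h), hit, prod_image h.injOn, sub_self, abs_zero]
    · rw [if_pos h, ← sub_mul, abs_mul, abs_of_nonneg (hν s)]
      refine (mul_le_of_le_one_left (hν s) ?_).trans (hb s)
      rw [abs_le]
      constructor <;> linarith [prod_nonneg (s := univ.image s) fun q _ => h0 q,
        prod_le_one (s := univ.image s) (fun q _ => h0 q) (fun q _ => h1 q),
        prod_nonneg (s := (univ : Finset (Fin k))) fun i _ => h0 (s i),
        prod_le_one (s := (univ : Finset (Fin k))) (fun i _ => h0 (s i)) (fun i _ => h1 (s i)),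
        show hit p s = ∏ q ∈ univ.image s, p q from rfl]
  refine (sum_le_sum fun s _ => hterm s).trans ?_
  rw [← sum_filter, sum_const, nsmul_eq_mul]
  exact mul_le_mul_of_nonneg_right (by exact_mod_cast card_not_injective k) hb0

/-- The one-set condition for a function constant on the small pieces of a labelling. -/
theorem smooth_step {T : Ω → Ω} (hT : MeasurePreserving T μ μ) {Q : Type*} [Fintype Q]
    [MeasurableSpace Q] [MeasurableSingletonClass Q] {k : ℕ} (hone : SubOneSetMix μ T k) {L : Ω → Q}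
    (hL : Measurable L) {δ : ℝ} (hδ : ∀ q, μ.real (L ⁻¹' {q}) ≤ δ) (hδ0 : 0 ≤ δ) {p : Q → ℝ}
    (h0 : ∀ q, 0 ≤ p q) (h1 : ∀ q, p q ≤ 1) {η : ℝ} (hη : 0 < η) :
    ∃ G : ℕ, ∀ t : Fin k → ℕ, Gaps G t →
      ∫ x, ∏ i, p (L (T^[t i] x)) ∂μ - (∑ q, p q * μ.real (L ⁻¹' {q})) ^ k ≤
        2 * (((k * k * Fintype.card Q ^ (k - 1) : ℕ) : ℝ) * (((k : ℝ) + 1) * δ) ^ k) + η := by
  classical
  set W := ((k * k * Fintype.card Q ^ (k - 1) : ℕ) : ℝ) with hW
  set η' := η / (W + 2) with hη'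
  have hη0 : 0 < η' := by positivity
  choose G hG using fun U : Finset Q =>
    hone (L ⁻¹' ↑U) (hL U.finite_toSet.measurableSet) η' hη0
  refine ⟨univ.sup G, fun t ht => ?_⟩
  have hG' : ∀ U : Finset Q, μ.real (⋂ i, T^[t i] ⁻¹' (L ⁻¹' ↑U)) ≤ μ.real (L ⁻¹' ↑U) ^ k + η' :=
    fun U => hG U t (gaps_mono (le_sup (mem_univ U)) ht)
  let ν : (Fin k → Q) → ℝ := fun s => law μ T t (fun _ => L) s
  let π : (Fin k → Q) → ℝ := fun s => ∏ i, μ.real (L ⁻¹' {s i})
  have hUlaw : ∀ U : Finset Q, μ.real (⋂ i, T^[t i] ⁻¹' (L ⁻¹' ↑U)) =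
      ∑ s, (if ∀ i, s i ∈ U then (1 : ℝ) else 0) * ν s := by
    intro U
    rw [sum_law_ind hT t (fun _ => hL) (fun _ q => q ∈ U)]
    rfl
  have hUπ : ∀ U : Finset Q, μ.real (L ⁻¹' ↑U) ^ k =
      ∑ s, (if ∀ i, s i ∈ U then (1 : ℝ) else 0) * π s := by
    intro U
    have : L ⁻¹' ↑U = {x | L x ∈ U} := rfl
    rw [this, ← sum_label hL (fun q => q ∈ U), Fintype.sum_pow]
    refine sum_congr rfl fun s _ => ?_
    simp only [π, prod_mul_distrib]
    congr 1
    rw [Fintype.prod_boole]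
    by_cases h : ∀ i, s i ∈ U <;> simp [h]
  have hν : ∀ s, ν s ≤ (((k : ℝ) + 1) * δ) ^ k + η' := by
    intro s
    refine (measureReal_mono (Set.iInter_mono fun i => Set.preimage_mono ?_)).trans
      (le_trans (hG' (univ.image s)) (add_le_add ?_ le_rfl))
    · intro x hx
      simp only [Set.mem_preimage, Set.mem_singleton_iff] at hx
      simp [hx]
    refine pow_le_pow_left₀ measureReal_nonneg ?_ k
    rw [← sum_measureReal_preimage_singleton _ (fun q _ => hL (measurableSet_singleton q))]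
    refine (sum_le_card_nsmul _ _ δ fun q _ => hδ q).trans ?_
    rw [nsmul_eq_mul]
    refine mul_le_mul_of_nonneg_right ?_ hδ0
    have : (univ.image s).card ≤ k := card_image_le.trans (by simp)
    have : ((univ.image s).card : ℝ) ≤ k := by exact_mod_cast this
    linarith
  have hπ : ∀ s, π s ≤ (((k : ℝ) + 1) * δ) ^ k := by
    intro s
    refine (prod_le_prod (fun i _ => measureReal_nonneg) fun i _ => (hδ (s i)).trans
      (le_mul_of_one_le_left hδ0
      (show (1 : ℝ) ≤ (k : ℝ) + 1 by linarith [(Nat.cast_nonneg k : (0 : ℝ) ≤ k)]))).trans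
      (le_of_eq ?_)
    simp
  have hb0 : 0 ≤ (((k : ℝ) + 1) * δ) ^ k := by positivity
  have e1 := sum_hit_sub_le h0 h1 (ν := ν) (b := (((k : ℝ) + 1) * δ) ^ k + η')
    (fun s => law_nonneg _ _ _) (by linarith) hν
  have e2 := sum_hit_sub_le h0 h1 (ν := π) (fun s => prod_nonneg fun i _ => measureReal_nonneg)
    hb0 hπ
  have e3 : ∑ s, hit p s * ν s - ∑ s, hit p s * π s ≤ η' := by
    have hsw : ∀ f : (Fin k → Q) → ℝ, ∑ s, hit p s * f s =
        ∑ U ∈ (univ : Finset Q).powerset, wt p U *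
          ∑ s, (if ∀ i, s i ∈ U then (1 : ℝ) else 0) * f s := by
      intro f
      simp only [mul_sum, ← sum_wt_hit p, sum_mul, ← mul_assoc]
      exact sum_comm
    rw [hsw, hsw, ← sum_sub_distrib]
    calc ∑ U ∈ (univ : Finset Q).powerset, _
        ≤ ∑ U ∈ (univ : Finset Q).powerset, wt p U * η' := sum_le_sum fun U _ => by
          rw [← mul_sub, ← hUlaw, ← hUπ]
          exact mul_le_mul_of_nonneg_left (by linarith [hG' U]) (wt_nonneg h0 h1 U)
      _ = η' := by
          rw [← sum_mul]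
          have := sum_wt_subset p ∅
          simp only [empty_subset, if_true, mul_one, prod_empty] at this
          rw [this, one_mul]
  have hI : ∫ x, ∏ i, p (L (T^[t i] x)) ∂μ = ∑ s, (∏ i, p (s i)) * ν s :=
    (sum_law hT t (fun _ => hL) fun s => ∏ i, p (s i)).symm
  have hP : (∑ q, p q * μ.real (L ⁻¹' {q})) ^ k = ∑ s, (∏ i, p (s i)) * π s := by
    rw [Fintype.sum_pow]
    exact sum_congr rfl fun s _ => prod_mul_distrib
  rw [hI, hP]
  have hfin : W * η' + η' ≤ η := by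
    rw [hη', ← add_one_mul, mul_div_assoc', div_le_iff₀ (by positivity)]
    nlinarith
  rw [abs_le] at e1 e2
  linarith

/-- The one-set condition for `1 + z` on a set and `1` off it. -/
theorem smooth {T : Ω → Ω} (hT : MeasurePreserving T μ μ)
    (hsplit : ∀ A : Set Ω, MeasurableSet A → 0 < μ.real A →
      ∃ B ⊆ A, MeasurableSet B ∧ 0 < μ.real B ∧ μ.real B < μ.real A)
    {k : ℕ} (hk : 1 ≤ k) (hone : SubOneSetMix μ T k) {A : Set Ω} (hA : MeasurableSet A) {z : ℝ}
    (hz : 0 ≤ z) {η : ℝ} (hη : 0 < η) :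
    ∃ G : ℕ, ∀ t : Fin k → ℕ, Gaps G t →
      ∫ x, ∏ i, (1 + z * A.indicator (fun _ => (1 : ℝ)) (T^[t i] x)) ∂μ -
        (1 + z * μ.real A) ^ k ≤ η := by
  classical
  set η' := η / (2 * (1 + z) ^ k) with hη'
  have hz1 : 0 < 1 + z := by linarith
  set K : ℝ := 2 * ((k : ℝ) * k * 4 ^ (k - 1) * ((k : ℝ) + 1) ^ k) with hK
  have hK0 : 0 < K := by
    have : (0 : ℝ) < k := by exact_mod_cast hk
    positivity
  set δ := min 1 (η' / K) with hδ
  have hη0 : 0 < η' := by positivity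
  have hδ0 : 0 < δ := lt_min one_pos (by positivity)
  obtain ⟨M1, L1, hL1, hM1, hp1⟩ := exists_cover hsplit hδ0 hA
  obtain ⟨M2, L2, hL2, hM2, hp2⟩ := exists_cover hsplit hδ0 hA.compl
  let L : Ω → Fin (M1 + 1) ⊕ Fin (M2 + 1) := fun x => if x ∈ A then Sum.inl (L1 x) else Sum.inr (L2 x)
  have hL : Measurable L := Measurable.ite hA (measurable_inl.comp hL1) (measurable_inr.comp hL2)
  have hpc : ∀ q, μ.real (L ⁻¹' {q}) ≤ δ := by
    rintro (j | j)
    · refine (measureReal_mono fun x hx => ?_).trans (hp1 j)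
      by_cases hxA : x ∈ A
      · simp only [L, Set.mem_preimage, if_pos hxA, Set.mem_singleton_iff, Sum.inl.injEq] at hx
        exact ⟨hxA, hx⟩
      · simp [L, hxA] at hx
    · refine (measureReal_mono fun x hx => ?_).trans (hp2 j)
      by_cases hxA : x ∈ A
      · simp [L, hxA] at hx
      · simp only [L, Set.mem_preimage, if_neg hxA, Set.mem_singleton_iff, Sum.inr.injEq] at hx
        exact ⟨hxA, hx⟩
  let p : Fin (M1 + 1) ⊕ Fin (M2 + 1) → ℝ := Sum.elim (fun _ => 1) (fun _ => 1 / (1 + z))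
  have hp0 : ∀ q, 0 ≤ p q := by rintro (j | j) <;> simp [p] <;> positivity
  have hp1' : ∀ q, p q ≤ 1 := by
    rintro (j | j)
    · simp [p]
    · show 1 / (1 + z) ≤ 1
      rw [div_le_one hz1]; linarith
  haveI : MeasurableSingletonClass (Fin (M1 + 1) ⊕ Fin (M2 + 1)) :=
    ⟨fun q => measurableSet_sum_iff.mpr
      ⟨(Set.to_countable _).measurableSet, (Set.to_countable _).measurableSet⟩⟩
  obtain ⟨G, hG⟩ := smooth_step hT hone hL hpc hδ0.le hp0 hp1' hη0
  refine ⟨G, fun t ht => ?_⟩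
  have h := hG t ht
  have hpL : ∀ x, p (L x) = (1 + z * A.indicator (fun _ => (1 : ℝ)) x) / (1 + z) := by
    intro x
    by_cases hx : x ∈ A <;> simp [L, p, hx, hz1.ne']
  have hsum : ∑ q, p q * μ.real (L ⁻¹' {q}) = (1 + z * μ.real A) / (1 + z) := by
    rw [Fintype.sum_sum_type]
    simp only [p, Sum.elim_inl, Sum.elim_inr, one_mul, ← mul_sum]
    have h1 : ∑ j, μ.real (L ⁻¹' {Sum.inl j}) = μ.real A := by
      have := sum_label (μ := μ) hL (fun q => q.isLeft = true)
      rw [Fintype.sum_sum_type] at this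
      simp only [Sum.isLeft_inl, Sum.isLeft_inr, if_true, one_mul, Bool.false_eq_true, if_false,
        zero_mul, sum_const_zero, add_zero] at this
      rw [this]
      congr 1
      ext x
      by_cases hx : x ∈ A <;> simp [L, hx]
    have h2 : ∑ j, μ.real (L ⁻¹' {Sum.inr j}) = 1 - μ.real A := by
      have := sum_label (μ := μ) hL (fun q => q.isRight = true)
      rw [Fintype.sum_sum_type] at this
      simp only [Sum.isRight_inl, Sum.isRight_inr, if_true, one_mul, Bool.false_eq_true, if_false,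
        zero_mul, sum_const_zero, zero_add] at this
      rw [this, ← probReal_compl_eq_one_sub hA]
      congr 1
      ext x
      by_cases hx : x ∈ A <;> simp [L, hx]
    rw [h1, h2]
    field_simp
    ring
  simp only [hpL, prod_div_distrib, prod_const, card_univ, Fintype.card_fin, integral_div,
    hsum, div_pow, ← sub_div] at h
  rw [div_le_iff₀ (pow_pos hz1 k)] at h
  refine h.trans ?_
  have hcard : ((k * k * Fintype.card (Fin (M1 + 1) ⊕ Fin (M2 + 1)) ^ (k - 1) : ℕ) : ℝ) *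
      (((k : ℝ) + 1) * δ) ^ k ≤ (k : ℝ) * k * 4 ^ (k - 1) * ((k : ℝ) + 1) ^ k * δ := by
    simp only [Fintype.card_sum, Fintype.card_fin]
    push_cast
    have hM : ((M1 : ℝ) + 1 + (M2 + 1)) * δ ≤ 4 := by
      have hc := probReal_compl_eq_one_sub (μ := μ) hA
      have : δ ≤ 1 := min_le_left _ _
      linarith
    obtain ⟨j, rfl⟩ : ∃ j, k = j + 1 := ⟨k - 1, by omega⟩
    rw [Nat.add_sub_cancel]
    have hpow : (((M1 : ℝ) + 1 + (M2 + 1)) * δ) ^ j ≤ 4 ^ j :=
      pow_le_pow_left₀ (by positivity) hM j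
    rw [show ((j + 1 : ℕ) : ℝ) * (j + 1 : ℕ) * ((M1 : ℝ) + 1 + (M2 + 1)) ^ j *
        ((((j + 1 : ℕ) : ℝ) + 1) * δ) ^ (j + 1) = ((j + 1 : ℕ) : ℝ) * (j + 1 : ℕ) *
        ((((M1 : ℝ) + 1 + (M2 + 1)) * δ) ^ j) * (((j + 1 : ℕ) : ℝ) + 1) ^ (j + 1) * δ by
      simp only [mul_pow, pow_succ]; ring]
    push_cast at hpow ⊢
    gcongr
  have hKδ : K * δ ≤ η' := by
    have : δ ≤ η' / K := min_le_right _ _
    rw [le_div_iff₀ hK0] at this
    linarith
  have heq : 2 * η' * (1 + z) ^ k = η := by rw [hη']; field_simp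
  rw [← heq]
  refine mul_le_mul_of_nonneg_right ?_ (by positivity)
  rw [hK] at hKδ
  linarith

end Vale.Agent.P102
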