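import Vale.Agent.P102.Defs

/-!
Atoms, splitting into small pieces, and finite labellings.
-/

open MeasureTheory Filter Topology Finset

namespace Vale.Agent.P102

variable {Ω : Type*} [MeasurableSpace Ω] {μ : Measure Ω} [IsProbabilityMeasure μ]

theorem exists_tiny (hsplit : ∀ A : Set Ω, MeasurableSet A → 0 < μ.real A →
      ∃ B ⊆ A, MeasurableSet B ∧ 0 < μ.real B ∧ μ.real B < μ.real A)
    {A : Set Ω} (hA : MeasurableSet A) (h : 0 < μ.real A) {η : ℝ} (hη : 0 < η) :
    ∃ B ⊆ A, MeasurableSet B ∧ 0 < μ.real B ∧ μ.real B ≤ η := by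
  have half : ∀ n : ℕ, ∃ B ⊆ A, MeasurableSet B ∧ 0 < μ.real B ∧ μ.real B ≤ (1 / 2 : ℝ) ^ n := by
    intro n
    induction n with
    | zero => exact ⟨A, subset_rfl, hA, h, by simpa using measureReal_le_one⟩
    | succ n ih =>
      obtain ⟨B, hBA, hB, hB0, hBn⟩ := ih
      obtain ⟨D, hDB, hD, hD0, hDlt⟩ := hsplit B hB hB0
      have hdiff : μ.real (B \ D) = μ.real B - μ.real D := measureReal_sdiff hDB hD
      rw [pow_succ]
      rcases le_total (μ.real D) (μ.real B / 2) with hc | hc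
      · exact ⟨D, hDB.trans hBA, hD, hD0, by linarith⟩
      · exact ⟨B \ D, Set.sdiff_subset.trans hBA, hB.diff hD, by linarith, by linarith⟩
  obtain ⟨n, hn⟩ := exists_pow_lt_of_lt_one hη (show (1 / 2 : ℝ) < 1 by norm_num)
  obtain ⟨B, h1, h2, h3, h4⟩ := half n
  exact ⟨B, h1, h2, h3, h4.trans hn.le⟩

theorem exists_piece (hsplit : ∀ A : Set Ω, MeasurableSet A → 0 < μ.real A →
      ∃ B ⊆ A, MeasurableSet B ∧ 0 < μ.real B ∧ μ.real B < μ.real A)
    {A : Set Ω} (hA : MeasurableSet A) {δ : ℝ} (hδ : 0 < δ) (hlt : δ < μ.real A) :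
    ∃ Z ⊆ A, MeasurableSet Z ∧ δ / 2 < μ.real Z ∧ μ.real Z ≤ δ := by
  classical
  by_contra hcon
  have hsmall : ∀ Z ⊆ A, MeasurableSet Z → μ.real Z ≤ δ → μ.real Z ≤ δ / 2 := by
    intro Z h1 h2 h3
    by_contra h
    exact hcon ⟨Z, h1, h2, not_le.mp h, h3⟩
  set V : Set ℝ := {v | ∃ Z ⊆ A, MeasurableSet Z ∧ μ.real Z ≤ δ / 2 ∧ v = μ.real Z} with hV
  have hVne : V.Nonempty := ⟨0, ∅, Set.empty_subset _, MeasurableSet.empty, by simp; linarith, by simp⟩
  have hVbdd : BddAbove V := ⟨δ / 2, fun v ⟨Z, _, _, h, e⟩ => e ▸ h⟩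
  have happrox : ∀ n : ℕ, ∃ Z ⊆ A, MeasurableSet Z ∧ μ.real Z ≤ δ / 2 ∧
      sSup V - 1 / ((n : ℝ) + 1) < μ.real Z := by
    intro n
    obtain ⟨v, ⟨Z, h1, h2, h3, rfl⟩, hv⟩ := exists_lt_of_lt_csSup hVne
      (sub_lt_self (sSup V) (show (0 : ℝ) < 1 / ((n : ℝ) + 1) by positivity))
    exact ⟨Z, h1, h2, h3, hv⟩
  choose Z hZA hZm hZd hZv using happrox
  let U : ℕ → Set Ω := fun n => n.rec (Z 0) fun i Y => Y ∪ Z (i + 1)
  have hU : ∀ n, U n ⊆ A ∧ MeasurableSet (U n) ∧ μ.real (U n) ≤ δ / 2 := by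
    intro n
    induction n with
    | zero => exact ⟨hZA 0, hZm 0, hZd 0⟩
    | succ n ih =>
      refine ⟨Set.union_subset ih.1 (hZA _), ih.2.1.union (hZm _),
        hsmall _ (Set.union_subset ih.1 (hZA _)) (ih.2.1.union (hZm _)) ?_⟩
      exact (measureReal_union_le _ _).trans (by linarith [ih.2.2, hZd (n + 1)])
  have hmono : Monotone U := monotone_nat_of_le_succ fun n => Set.subset_union_left
  set W := ⋃ n, U n with hW
  have hlim : Tendsto (fun n => μ.real (U n)) atTop (𝓝 (μ.real W)) :=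
    (ENNReal.tendsto_toReal (measure_ne_top μ W)).comp (tendsto_measure_iUnion_atTop hmono)
  have hWd : μ.real W ≤ δ / 2 := le_of_tendsto' hlim fun n => (hU n).2.2
  have hWA : W ⊆ A := Set.iUnion_subset fun n => (hU n).1
  have hWm : MeasurableSet W := MeasurableSet.iUnion fun n => (hU n).2.1
  have hWs : sSup V ≤ μ.real W := by
    refine le_of_forall_pos_le_add fun e he => ?_
    obtain ⟨n, hn⟩ := exists_nat_one_div_lt he
    have hsub : Z n ⊆ W := by
      refine Set.subset_iUnion_of_subset n ?_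
      cases n
      · exact subset_rfl
      · exact Set.subset_union_right
    have := measureReal_mono (μ := μ) hsub
    linarith [hZv n]
  have hrest : 0 < μ.real (A \ W) := by
    rw [measureReal_sdiff hWA hWm]; linarith
  obtain ⟨X, hXA, hXm, hX0, hXd⟩ := exists_tiny hsplit (hA.diff hWm) hrest
    (show 0 < δ / 2 by linarith)
  have hdisj : Disjoint W X := Set.disjoint_left.mpr fun x hx hx' => (hXA hx').2 hx
  have hWX : μ.real (W ∪ X) = μ.real W + μ.real X := measureReal_union hdisj hXm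
  have hsub : W ∪ X ⊆ A := Set.union_subset hWA (hXA.trans Set.sdiff_subset)
  have := hsmall _ hsub (hWm.union hXm) (by linarith)
  have : μ.real (W ∪ X) ≤ sSup V := le_csSup hVbdd ⟨_, hsub, hWm.union hXm, this, rfl⟩
  linarith

/-- A measurable set is a union of few small pieces. -/
theorem exists_cover (hsplit : ∀ A : Set Ω, MeasurableSet A → 0 < μ.real A →
      ∃ B ⊆ A, MeasurableSet B ∧ 0 < μ.real B ∧ μ.real B < μ.real A)
    {δ : ℝ} (hδ : 0 < δ) {A : Set Ω} (hA : MeasurableSet A) :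
    ∃ (M : ℕ) (L : Ω → Fin (M + 1)), Measurable L ∧ (M : ℝ) * (δ / 2) ≤ μ.real A ∧
      ∀ j, μ.real (A ∩ L ⁻¹' {j}) ≤ δ := by
  classical
  obtain ⟨B, hB⟩ := exists_nat_gt (μ.real A / (δ / 2))
  induction B generalizing A with
  | zero =>
    exfalso
    have : 0 ≤ μ.real A / (δ / 2) := by positivity
    simp at hB
    linarith
  | succ B ih =>
    by_cases hle : μ.real A ≤ δ
    · refine ⟨0, fun _ => 0, measurable_const, by simp, fun j => ?_⟩
      exact (measureReal_mono Set.inter_subset_left).trans hle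
    obtain ⟨Z, hZA, hZm, hZlo, hZhi⟩ := exists_piece hsplit hA hδ (not_le.mp hle)
    have hd : μ.real (A \ Z) = μ.real A - μ.real Z := measureReal_sdiff hZA hZm
    have hB' : μ.real (A \ Z) / (δ / 2) < (B : ℝ) := by
      rw [div_lt_iff₀ (by linarith)] at hB ⊢
      push_cast at hB
      linarith
    obtain ⟨M, L, hL, hM, hpieces⟩ := ih (hA.diff hZm) hB'
    refine ⟨M + 1, fun x => if x ∈ Z then Fin.last (M + 1) else (L x).castSucc,
      Measurable.ite hZm measurable_const (measurable_from_top.comp hL), ?_, fun j => ?_⟩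
    · push_cast; linarith
    · refine Fin.lastCases ?_ (fun i => ?_) j
      · refine (measureReal_mono fun x hx => ?_).trans hZhi
        obtain ⟨-, hx⟩ := hx
        by_contra hxZ
        simp [hxZ, Fin.castSucc_ne_last] at hx
      · refine (measureReal_mono fun x hx => ?_).trans (hpieces i)
        obtain ⟨hxA, hx⟩ := hx
        by_cases hxZ : x ∈ Z
        · simp [hxZ, (Fin.castSucc_ne_last i).symm] at hx
        · simp [hxZ] at hx
          exact ⟨⟨hxA, hxZ⟩, hx⟩

/-- Either an atom or splittability. -/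
theorem atom_or_split (μ : Measure Ω) :
    (∀ A : Set Ω, MeasurableSet A → 0 < μ.real A →
      ∃ B ⊆ A, MeasurableSet B ∧ 0 < μ.real B ∧ μ.real B < μ.real A) ∨
    ∃ A : Set Ω, MeasurableSet A ∧ 0 < μ.real A ∧
      ∀ B ⊆ A, MeasurableSet B → μ.real B = 0 ∨ μ.real A ≤ μ.real B := by
  by_contra h
  rw [not_or] at h
  refine h.1 fun A hA h0 => ?_
  by_contra hno
  refine h.2 ⟨A, hA, h0, fun B hBA hB => ?_⟩
  by_contra hB'
  rw [not_or, not_le] at hB'
  exact hno ⟨B, hBA, hB, lt_of_le_of_ne measureReal_nonneg (Ne.symm hB'.1), hB'.2⟩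

/-- An atom of full measure makes every event trivial. -/
theorem trivial_of_full_atom {A : Set Ω} (hA : MeasurableSet A) (h1 : μ.real A = 1)
    (hatom : ∀ B ⊆ A, MeasurableSet B → μ.real B = 0 ∨ μ.real A ≤ μ.real B)
    {B : Set Ω} (hB : MeasurableSet B) : μ.real B = 0 ∨ μ.real B = 1 := by
  have hc : μ.real (B \ A) = 0 := by
    have h2 : μ.real (Aᶜ) = 0 := by rw [probReal_compl_eq_one_sub hA, h1, sub_self]
    exact le_antisymm (h2 ▸ measureReal_mono (fun x hx => hx.2)) measureReal_nonneg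
  have hsum : μ.real (B ∩ A) + μ.real (B \ A) = μ.real B := measureReal_inter_add_sdiff hA
  rcases hatom (B ∩ A) Set.inter_subset_right (hB.inter hA) with h | h
  · exact Or.inl (by linarith)
  · exact Or.inr (le_antisymm measureReal_le_one (by linarith))

/-- When every event is trivial the map is mixing of every order. -/
theorem mixOrder_of_trivial {T : Ω → Ω} (hT : MeasurePreserving T μ μ) (k : ℕ)
    (htriv : ∀ B : Set Ω, MeasurableSet B → μ.real B = 0 ∨ μ.real B = 1) : MixOrder μ T k := by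
  classical
  intro A hA ε hε
  refine ⟨0, fun t _ => ?_⟩
  suffices h : μ.real (⋂ i, T^[t i] ⁻¹' A i) = ∏ i, μ.real (A i) by rw [h, sub_self, abs_zero]; exact hε.le
  by_cases h : ∃ i, μ.real (A i) = 0
  · obtain ⟨i, hi⟩ := h
    rw [prod_eq_zero (mem_univ i) hi]
    refine le_antisymm ?_ measureReal_nonneg
    refine (measureReal_mono (Set.iInter_subset _ i)).trans (le_of_eq ?_)
    rw [(hT.iterate _).measureReal_preimage (hA i).nullMeasurableSet, hi]
  · have h1 : ∀ i, μ.real (A i) = 1 := fun i =>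
      (htriv _ (hA i)).resolve_left fun h0 => h ⟨i, h0⟩
    rw [prod_congr rfl fun i _ => h1 i, prod_const_one]
    have hm : MeasurableSet (⋂ i, T^[t i] ⁻¹' A i) :=
      MeasurableSet.iInter fun i => (hT.iterate _).measurable (hA i)
    have hc : μ.real (⋂ i, T^[t i] ⁻¹' A i)ᶜ = 0 := by
      rw [Set.compl_iInter]
      refine le_antisymm ((measureReal_iUnion_fintype_le _).trans (le_of_eq ?_)) measureReal_nonneg
      refine sum_eq_zero fun i _ => ?_
      rw [← Set.preimage_compl, (hT.iterate _).measureReal_preimage (hA i).compl.nullMeasurableSet,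
        probReal_compl_eq_one_sub (hA i), h1 i, sub_self]
    have := probReal_compl_eq_one_sub (μ := μ) hm
    linarith

/-- The law of the labels seen at the times `t`. -/
noncomputable def law {Q : Type*} (μ : Measure Ω) (T : Ω → Ω) {k : ℕ} (t : Fin k → ℕ) (L : Fin k → Ω → Q)
    (s : Fin k → Q) : ℝ :=
  μ.real (⋂ i, T^[t i] ⁻¹' (L i ⁻¹' {s i}))

theorem law_eq {Q : Type*} {T : Ω → Ω} {k : ℕ} (t : Fin k → ℕ) (L : Fin k → Ω → Q)
    (s : Fin k → Q) :
    law μ T t L s = μ.real ((fun x i => L i (T^[t i] x)) ⁻¹' {s}) := by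
  rw [law]
  congr 1
  ext x
  simp [funext_iff]

theorem sum_law {Q : Type*} [Fintype Q] [MeasurableSpace Q] [MeasurableSingletonClass Q]
    {T : Ω → Ω} (hT : MeasurePreserving T μ μ) {k : ℕ} (t : Fin k → ℕ) {L : Fin k → Ω → Q}
    (hL : ∀ i, Measurable (L i)) (G : (Fin k → Q) → ℝ) :
    ∑ s, G s * law μ T t L s = ∫ x, G (fun i => L i (T^[t i] x)) ∂μ := by
  classical
  have hm : Measurable fun x i => L i (T^[t i] x) :=
    measurable_pi_iff.mpr fun i => (hL i).comp (hT.iterate _).measurable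
  rw [← integral_map (μ := μ) hm.aemeasurable (Measurable.of_discrete (f := G)).aestronglyMeasurable,
    integral_fintype]
  · refine sum_congr rfl fun s _ => ?_
    rw [law_eq, map_measureReal_apply hm (measurableSet_singleton s), smul_eq_mul, mul_comm]
  · exact Integrable.of_finite

theorem sum_law_ind {Q : Type*} [Fintype Q] [MeasurableSpace Q] [MeasurableSingletonClass Q]
    {T : Ω → Ω} (hT : MeasurePreserving T μ μ) {k : ℕ} (t : Fin k → ℕ) {L : Fin k → Ω → Q}
    (hL : ∀ i, Measurable (L i)) (P : Fin k → Q → Prop) [∀ i, DecidablePred (P i)] :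
    ∑ s, (if ∀ i, P i (s i) then 1 else 0) * law μ T t L s =
      μ.real (⋂ i, T^[t i] ⁻¹' {x | P i (L i x)}) := by
  classical
  rw [sum_law hT t hL, ← integral_indicator_one]
  · congr 1
    funext x
    simp [Set.indicator_apply]
  · exact MeasurableSet.iInter fun i => (hT.iterate _).measurable
      ((hL i) (Set.toFinite {q | P i q}).measurableSet)

theorem law_nonneg {Q : Type*} {T : Ω → Ω} {k : ℕ} (t : Fin k → ℕ) (L : Fin k → Ω → Q)
    (s : Fin k → Q) : 0 ≤ law μ T t L s := measureReal_nonneg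

end Vale.Agent.P102
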